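import Crest.Agent.N218.En.Defs

/-! # Row 218, END wrapper (helper92): complex coordinates -/

set_option autoImplicit false
set_option linter.unusedVariables false

open Set Module
open scoped InnerProductSpace

noncomputable section

namespace Crest.Agent.N218.En
open Pm Sk

namespace Cx

/-- the coordinate projection -/
def pc (a b : ℕ) : Cn (a + b) →L[ℂ] Cn (a + b) :=
  LinearMap.toContinuousLinearMap
    { toFun := fun y => WithLp.toLp 2 fun i => if (i : ℕ) < a then y i else 0
      map_add' := fun y z => by ext i; by_cases h : (i : ℕ) < a <;> simp [h]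
      map_smul' := fun c z => by ext i; by_cases h : (i : ℕ) < a <;> simp [h] }

theorem pc_apply (a b : ℕ) (y : Cn (a + b)) (i : Fin (a + b)) :
    pc a b y i = if (i : ℕ) < a then y i else 0 := rfl

/-- a real orthonormal basis of complex Euclidean space -/
def rb (n : ℕ) : OrthonormalBasis (Fin n × Fin 2) ℝ (Cn n) :=
  (Pi.orthonormalBasis fun _ : Fin n => Complex.orthonormalBasisOneI).reindex
    (Equiv.sigmaEquivProd _ _)

theorem rb_apply (n : ℕ) (i : Fin n) (j : Fin 2) :
    rb n (i, j) = PiLp.single 2 i (Complex.orthonormalBasisOneI j) := by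
  simp [rb]

theorem pc_rb (a b : ℕ) (i : Fin (a + b)) (j : Fin 2) :
    pc a b (rb _ (i, j)) = if (i : ℕ) < a then rb _ (i, j) else 0 := by
  ext l
  rw [pc_apply, rb_apply]
  by_cases h : l = i
  · subst h; split_ifs <;> simp
  · split_ifs <;> simp [h]

end Cx
open Cx

theorem cxe : CXE := by
  intro F _ _ _ π o ⟨n, hn⟩ ⟨a, ha⟩
  set U := LinearMap.range (π : F →ₗ[ℝ] F)
  have hs := U.finrank_add_finrank_orthogonal
  obtain ⟨b, rfl⟩ : ∃ b, n = a + b := ⟨n - a, by omega⟩
  have hb : finrank ℝ Uᗮ = b + b := by omega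
  let u : OrthonormalBasis (Fin a × Fin 2) ℝ U :=
    (stdOrthonormalBasis ℝ U).reindex (Fintype.equivOfCardEq (by simp [ha]; ring))
  let v : OrthonormalBasis (Fin b × Fin 2) ℝ Uᗮ :=
    (stdOrthonormalBasis ℝ Uᗮ).reindex (Fintype.equivOfCardEq (by simp [hb]; ring))
  let w : Fin (a + b) × Fin 2 → F := fun x =>
    Fin.addCases (motive := fun _ => F) (fun i => u (i, x.2)) (fun i => v (i, x.2)) x.1
  have ow : Orthonormal ℝ w := by
    rw [orthonormal_iff_ite]
    rintro ⟨i, j⟩ ⟨i', j'⟩
    refine Fin.addCases (fun i => ?_) (fun i => ?_) i <;>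
      refine Fin.addCases (fun i' => ?_) (fun i' => ?_) i' <;>
      simp only [w, Fin.addCases_left, Fin.addCases_right]
    · simpa using orthonormal_iff_ite.1 u.orthonormal (i, j) (i', j')
    · rw [(v (i', j')).2 _ (u (i, j)).2, if_neg]
      intro h
      have := congrArg (fun x => (x.1 : ℕ)) h
      simp at this; omega
    · rw [real_inner_comm, (v (i, j)).2 _ (u (i', j')).2, if_neg]
      intro h
      have := congrArg (fun x => (x.1 : ℕ)) h
      simp at this; omega
    · simpa using orthonormal_iff_ite.1 v.orthonormal (i, j) (i', j')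
  let W : OrthonormalBasis (Fin (a + b) × Fin 2) ℝ F := OrthonormalBasis.mk ow
    (ow.linearIndependent.span_eq_top_of_card_eq_finrank' (by simp [hn]; ring)).ge
  let e := (rb (a + b)).equiv W (Equiv.refl _)
  refine ⟨a + b, e, pc a b, fun y => ?_, fun y z => ?_, fun y => ?_⟩
  · ext i; simp only [pc_apply]; split_ifs <;> rfl
  · simp only [PiLp.inner_apply, pc_apply]
    exact Finset.sum_congr rfl fun i _ => by split_ifs <;> simp
  · have : e.toLinearEquiv.toLinearMap ∘ₗ ((pc a b).toLinearMap.restrictScalars ℝ) =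
        π.toLinearMap ∘ₗ e.toLinearEquiv.toLinearMap := by
      refine (rb (a + b)).toBasis.ext ?_
      rintro ⟨i, j⟩
      change e (pc a b (rb _ (i, j))) = π (e (rb _ (i, j)))
      rw [pc_rb, OrthonormalBasis.equiv_apply_basis, apply_ite e, map_zero,
        OrthonormalBasis.equiv_apply_basis, Equiv.refl_apply, OrthonormalBasis.coe_mk]
      refine Fin.addCases (fun i => ?_) (fun i => ?_) i <;>
        simp only [w, Fin.addCases_left, Fin.addCases_right]
      · obtain ⟨t, ht⟩ := (u (i, j)).2
        rw [if_pos (by simp), ← ht]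
        exact (o.id t).symm
      · rw [if_neg (by simp)]
        refine (inner_self_eq_zero (𝕜 := ℝ)).1 ?_ |>.symm
        rw [o.sy, o.id, real_inner_comm]
        exact (v (i, j)).2 _ ⟨_, rfl⟩
    exact LinearMap.congr_fun this y

end Crest.Agent.N218.En

end
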