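import Crest.Agent.N218.Rd.Defs
import Crest.Agent.N218.Sk.Hom

/-!
# Row 218, END wrapper (helper92): gradient data, the leaves
-/

set_option autoImplicit false
set_option linter.unusedVariables false

open Set Topology
open scoped InnerProductSpace

noncomputable section

namespace Crest.Agent.N218.En
open Pm Sk

/-- `L²` product -/
abbrev P2 (F G : Type) : Type := WithLp 2 (F × G)

section pm
variable {F F' E E' : Type} [NormedAddCommGroup F] [NormedSpace ℝ F] [NormedAddCommGroup F']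
  [NormedSpace ℝ F'] [NormedAddCommGroup E] [NormedSpace ℝ E] [NormedAddCommGroup E']
  [NormedSpace ℝ E']
/-- product of linear maps -/
def pm (A : F →L[ℝ] F') (A' : E →L[ℝ] E') : P2 F E →L[ℝ] P2 F' E' :=
  ((WithLp.prodContinuousLinearEquiv 2 ℝ F' E').symm : F' × E' →L[ℝ] P2 F' E').comp
    ((A.prodMap A').comp (WithLp.prodContinuousLinearEquiv 2 ℝ F E : P2 F E →L[ℝ] F × E))
theorem pm_apply (A : F →L[ℝ] F') (A' : E →L[ℝ] E') (v : P2 F E) :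
    pm A A' v = WithLp.toLp 2 (A v.fst, A' v.snd) := rfl
@[simp] theorem pm_fst (A : F →L[ℝ] F') (A' : E →L[ℝ] E') (v : P2 F E) :
    (pm A A' v).fst = A v.fst := rfl
@[simp] theorem pm_snd (A : F →L[ℝ] F') (A' : E →L[ℝ] E') (v : P2 F E) :
    (pm A A' v).snd = A' v.snd := rfl
end pm

/-- a gradient field `gr` of `g`, a retraction `Rr`, the critical point is `0` -/
structure Gb (B F : Type) [NormedAddCommGroup F] [InnerProductSpace ℝ F] where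
  p₁ : F →L[ℝ] F
  pp : F →L[ℝ] F
  D : Set (B × F)
  Rr : B × F → F
  g : B × F → ℝ
  gr : B × F → F
  H : B → F →L[ℝ] F
  C : ℝ
  δ : ℝ
  ρ : ℝ

/-- orthogonal projections -/
structure Op {F : Type} [NormedAddCommGroup F] [InnerProductSpace ℝ F] (p : F →L[ℝ] F) : Prop where
  id : ∀ v, p (p v) = p v
  sy : ∀ v w, ⟪p v, w⟫_ℝ = ⟪v, p w⟫_ℝ

namespace Gb
variable {B F : Type} [TopologicalSpace B] [NormedAddCommGroup F] [InnerProductSpace ℝ F]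
  (G : Gb B F)

/-- gradient step and retraction -/
def f (ε : ℝ) (w : B × F) : F := G.Rr (w.1, w.2 - ε • G.gr w)

/-- the axioms -/
structure Ok [CompleteSpace F] : Prop where
  o₁ : Op G.p₁
  op : Op G.pp
  oz : ∀ v, G.p₁ (G.pp v) = 0 ∧ G.pp (G.p₁ v) = 0
  C0 : 0 < G.C
  δ0 : 0 < G.δ
  ρ0 : 0 < G.ρ
  ρC : G.ρ ≤ G.C
  Dc : IsClosed G.D
  Db : ∀ w ∈ G.D, ‖w.2 - G.p₁ w.2 - G.pp w.2‖ ≤ G.C
  Rc : Continuous G.Rr
  RD : ∀ w, (w.1, G.Rr w) ∈ G.D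
  R₁ : ∀ w, G.p₁ (G.Rr w) = G.p₁ w.2
  Rp : ∀ w, G.pp (G.Rr w) = G.pp w.2
  gc : Continuous G.g
  grc : Continuous G.gr
  gd : ∀ b v, HasGradientAt (fun v => G.g (b, v)) (G.gr (b, v)) v
  gb : ∀ w, ‖G.gr w - (G.pp w.2 - G.p₁ w.2)‖ ≤ G.C
  gl : ∀ b v v', ‖G.gr (b, v) - G.gr (b, v')‖ ≤ G.C * ‖v - v'‖
  mono : ∀ b v v', (b, v) ∈ G.D → ‖v' - v‖ ≤ G.δ → G.g (b, G.Rr (b, v')) ≤ G.g (b, v')
  big : ∀ w, G.g (w.1, G.Rr w) ≤ G.g w + G.C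
  crit : ∀ w ∈ G.D, G.gr w = 0 → w.2 = 0
  nr : ∀ w : B × F, ‖w.2‖ ≤ 2 * G.ρ → w ∈ G.D ∧ G.Rr w = w.2
  g0 : ∀ b, G.g (b, 0) = 0 ∧ G.gr (b, 0) = 0

/-- the Hessian -/
structure Hs : Prop where
  ct : Continuous G.H
  sy : ∀ b v w, ⟪G.H b v, w⟫_ℝ = ⟪v, G.H b w⟫_ℝ
  inj : ∀ b v, G.H b v = 0 → v = 0
  id : ∀ w ∈ G.D, G.Rr w = w.2

/-- before the cut to the `2`-jet -/
structure Df : Prop extends G.Hs where
  df : ∀ θ : ℝ, 0 < θ → ∃ δ' > 0, ∀ b v, ‖v‖ ≤ δ' → ‖G.gr (b, v) - G.H b v‖ ≤ θ * ‖v‖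
  mar : ∀ b v v', (b, v) ∈ G.D → ‖v' - v‖ ≤ G.δ → ‖G.Rr (b, v') - v'‖ ≤ G.ρ

/-- after the cut to the `2`-jet -/
structure Qd : Prop extends G.Hs where
  qd : ∀ b v, ‖v‖ ≤ G.ρ → G.g (b, v) = 1 / 2 * ⟪G.H b v, v⟫_ℝ ∧ G.gr (b, v) = G.H b v

variable {E : Type} [NormedAddCommGroup E] [InnerProductSpace ℝ E]

/-- product with the quadratic form of `1 - 2 π` -/
def st (π : E →L[ℝ] E) : Gb B (P2 F E) where
  p₁ := pm G.p₁ π
  pp := pm G.pp (1 - π)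
  D := {w | (w.1, w.2.fst) ∈ G.D}
  Rr := fun w => WithLp.toLp 2 (G.Rr (w.1, w.2.fst), w.2.snd)
  g := fun w => G.g (w.1, w.2.fst) + 1 / 2 * ⟪w.2.snd - (2 : ℝ) • π w.2.snd, w.2.snd⟫_ℝ
  gr := fun w => WithLp.toLp 2 (G.gr (w.1, w.2.fst), w.2.snd - (2 : ℝ) • π w.2.snd)
  H := fun b => pm (G.H b) (1 - (2 : ℝ) • π)
  C := G.C + 1
  δ := G.δ
  ρ := G.ρ

/-- the clamp of the contracting part -/
def cp (v : F) : F := v - G.pp v + (G.C / max G.C ‖G.pp v‖) • G.pp v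

/-- the input of RED -/
def rg (ι : B → E →L[ℝ] F) (ι' : B → F →L[ℝ] E) (a ε : ℝ) : Rd.Rg B F E where
  p₁ := fun _ => G.p₁
  C := fun _ => 0
  μ := 1 + ε
  O := univ
  ph := fun w => (1 - cl w.1.2) • (1 + ε) • G.p₁ w.2 + cl w.1.2 • G.f ε (w.1.1, G.cp w.2)
  f := fun w => G.f ε (w.1, G.cp w.2)
  Dm := {w ∈ G.D | ‖G.pp w.2‖ ≤ G.C}
  j := fun w => G.f (w.1 * ε) w.2 + (w.2.2 - G.Rr w.2)
  g := fun w => ε * G.g w
  H := fun b => ε • G.H b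
  ι := ι
  ι' := ι'
  a := ε * a
  r := G.ρ / 2
end Gb

section fr
variable {B F E : Type} [TopologicalSpace B] [NormedAddCommGroup F] [InnerProductSpace ℝ F]
  [NormedAddCommGroup E] [InnerProductSpace ℝ E]

/-- `P` is the projection onto the negative space of `H` -/
structure Ng (H P : B → F →L[ℝ] F) (a : ℝ) : Prop where
  a0 : 0 < a
  ct : Continuous P
  op : ∀ b, Op (P b)
  cm : ∀ b v, H b (P b v) = P b (H b v)
  ng : ∀ b v, ⟪H b (P b v), P b v⟫_ℝ ≤ -(a * ‖P b v‖ ^ 2)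
  ps : ∀ b v, P b v = 0 → 0 ≤ ⟪H b v, v⟫_ℝ

/-- orthonormal frames of the range of `P` -/
structure Fr (P : B → F →L[ℝ] F) (ι : B → E →L[ℝ] F) (ι' : B → F →L[ℝ] E) : Prop where
  ic : Continuous ι
  ic' : Continuous ι'
  ad : ∀ b z v, ⟪ι b z, v⟫_ℝ = ⟪z, ι' b v⟫_ℝ
  li : ∀ b z, ι' b (ι b z) = z
  ri : ∀ b v, ι b (ι' b v) = P b v
end fr

/-! ## the leaves -/

/-- statements about all gradient data -/
def All (Q : ∀ (B F : Type) [TopologicalSpace B] [CompactSpace B] [NormedAddCommGroup F]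
    [InnerProductSpace ℝ F] [FiniteDimensional ℝ F] [CompleteSpace F], Gb B F → Prop) : Prop :=
  ∀ (B F : Type) [TopologicalSpace B] [CompactSpace B] [T2Space B] [NormedAddCommGroup F]
    [InnerProductSpace ℝ F] [FiniteDimensional ℝ F] [CompleteSpace F] (G : Gb B F), G.Ok → Q B F G

/-- the Lyapunov inequality -/
def LY : Prop := All fun _ _ _ _ _ _ _ _ G => ∃ ε₀ > 0, ∀ ε, 0 ≤ ε → ε ≤ ε₀ → ∀ w ∈ G.D,
  G.g (w.1, G.f ε w) ≤ G.g w - ε / 4 * ‖G.gr w‖ ^ 2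

/-- good families -/
def GF : Prop := All fun _ _ _ _ _ _ _ _ G => ∀ k, 1 ≤ k → ∃ ε₀ > 0, ∀ ε, 0 < ε → ε ≤ ε₀ →
  Gf k (G.f ε) ∧ Gf k fun w => G.f ε (w.1, G.cp w.2)

/-- from the output of block (C) to gradient data -/
def DG : Prop := ∀ (Φ : A.Fam) (M : ℕ) (c : ℝ) (B : C.Eu M →L[ℝ] C.Eu M) ξ γ gr zz k' rs,
  C.Dyn Φ.ρ Φ.r Φ.w c B ξ γ gr zz → Kf Φ.ρ Φ.r Φ.w c ξ γ k' rs →
  ∃ (G : Gb (S11 × unitInterval) (C.Fb (C.Eu M))) (G₁ : Gb S11 (C.Fb (C.Eu M))), G.Ok ∧ G₁.Ok ∧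
    G₁.Df ∧ Continuous (fun x : S11 => zz x) ∧ ∀ ε (x : S11) v, G.f ε ((x, 0), v) = fe Φ.r B ξ gr ε x (v + zz x) - zz x ∧
      G.f ε ((x, 1), v) = G₁.f ε (x, v)

/-- translations -/
def TRL : Prop := ∀ (B F : Type) [TopologicalSpace B] [CompactSpace B] [T2Space B]
  [NormedAddCommGroup F] [NormedSpace ℝ F] [FiniteDimensional ℝ F] (A : Type) [AddCommGroup A]
  (T : Th B A) (k : ℕ) (f : B × F → F) (c : B → F), 16 ≤ k → Continuous c → Gf k f →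
  T.pa k (sp F) (Ec k univ f) = T.pa k (sp F) (Ec k univ fun w => f (w.1, w.2 - c w.1) + c w.1)

/-- the cut to the `2`-jet -/
def JET : Prop := All fun B F _ _ _ _ _ _ G => G.Df →
  ∃ (G' : Gb (B × unitInterval) F) (G₁ : Gb B F), G'.Ok ∧ G₁.Ok ∧ G₁.Qd ∧
    ∀ ε b v, G'.f ε ((b, 0), v) = G.f ε (b, v) ∧ G'.f ε ((b, 1), v) = G₁.f ε (b, v)

/-- stabilisation: the axioms -/
def STA : Prop := All fun B F _ _ _ _ _ _ G => ∀ (E : Type) [NormedAddCommGroup E]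
  [InnerProductSpace ℝ E] [FiniteDimensional ℝ E] [CompleteSpace E] (π : E →L[ℝ] E), Op π →
  (G.st π).Ok ∧ (G.Qd → (G.st π).Qd) ∧ ∀ P a, Ng G.H P a →
    Ng (G.st π).H (fun b => pm (P b) π) (min a 1)

/-- stabilisation: the invariant -/
def STE : Prop := ∀ (B F E : Type) [TopologicalSpace B] [CompactSpace B] [T2Space B]
  [NormedAddCommGroup F] [InnerProductSpace ℝ F] [FiniteDimensional ℝ F] [NormedAddCommGroup E]
  [InnerProductSpace ℝ E] [FiniteDimensional ℝ E] (A : Type) [AddCommGroup A] (T : Th B A) (k : ℕ)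
  (f : B × F → F) (π : E →L[ℝ] E) (ε : ℝ), 16 ≤ k → Op π → 0 < ε → ε ≤ 1 / 2 → Gf k f →
  Pe (T.pa k (sp (P2 F E)) (Ec k univ fun w : B × P2 F E => WithLp.toLp 2
      (f (w.1, w.2.fst), w.2.snd - ε • (w.2.snd - (2 : ℝ) • π w.2.snd))))
    (T.pa k (sp F) (Ec k univ f))

/-- the negative spectral projection is continuous -/
def SGN : Prop := ∀ (B F : Type) [TopologicalSpace B] [CompactSpace B] [T2Space B]
  [NormedAddCommGroup F] [InnerProductSpace ℝ F] [FiniteDimensional ℝ F] (H : B → F →L[ℝ] F),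
  Continuous H → (∀ b v w, ⟪H b v, w⟫_ℝ = ⟪v, H b w⟫_ℝ) → (∀ b v, H b v = 0 → v = 0) →
  ∃ P a, Ng H P a

/-- real bundles over `S¹¹` are stably trivial -/
def TRV : Prop := ∀ (F : Type) [NormedAddCommGroup F] [InnerProductSpace ℝ F]
  [FiniteDimensional ℝ F] (P : S11 → F →L[ℝ] F), Continuous P → (∀ b, Op (P b)) →
  ∃ (k m : ℕ) (ι : S11 → C.Eu m →L[ℝ] P2 F (C.Eu k)) (ι' : _), Fr (fun b => pm (P b) 1) ι ι'

/-- statements about all framed quadratic data -/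
def AllF (Q : ∀ (B F E : Type) [TopologicalSpace B] [CompactSpace B] [NormedAddCommGroup F]
    [InnerProductSpace ℝ F] [FiniteDimensional ℝ F] [NormedAddCommGroup E] [InnerProductSpace ℝ E],
    Gb B F → (ℝ → Rd.Rg B F E) → Prop) : Prop :=
  All fun B F _ _ _ _ _ _ G => ∀ (E : Type) [NormedAddCommGroup E] [InnerProductSpace ℝ E]
    [FiniteDimensional ℝ E] (P : B → F →L[ℝ] F) (a : ℝ) (ι : B → E →L[ℝ] F) (ι' : _), G.Qd →
    Ng G.H P a → Fr P ι ι' → Q B F E G (G.rg ι ι' a)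

/-- the input of RED satisfies the axioms -/
def WRA : Prop := AllF fun _ _ _ _ _ _ _ _ _ _ G R => ∃ ε₀ > 0, ∀ ε, 0 < ε → ε ≤ ε₀ →
  (R ε).Ok 0 (ε / 2) (2 * G.C) (2 * G.C)

/-- the invariant of the path is the invariant of the map -/
def WRB : Prop := AllF fun B F _ _ _ _ _ _ _ _ G R => ∀ (A : Type) [AddCommGroup A] (T : Th B A)
  (k : ℕ), 16 ≤ k → ∃ ε₀ > 0, ∀ ε, 0 < ε → ε ≤ ε₀ → ∃ δ₀ > 0, ∀ δ, 0 < δ → δ < δ₀ →
    Pe (T.pa k (sp F) ((Psi k (R ε).O (R ε).ph).F (tau δ))) (T.pa k (sp F) (Ec k univ (G.f ε)))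

/-- equal ranks -/
def DIM : Prop := ∀ (X F E : Type) [TopologicalSpace X] [CompactSpace X] [T2Space X]
  [NormedAddCommGroup F] [NormedSpace ℝ F] [FiniteDimensional ℝ F] [NormedAddCommGroup E]
  [NormedSpace ℝ E] [FiniteDimensional ℝ E] (D : Rd.RD X F E) (c κ R₀ M : ℝ) (O ph : _) (x : X),
  D.Ok c κ R₀ M O ph → (∀ y, D.p₁ x (D.p₁ x y) = D.p₁ x y) → (∀ z, D.p₂ x z = z) →
  Module.finrank ℝ (LinearMap.range (D.p₁ x : F →ₗ[ℝ] F)) = Module.finrank ℝ E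

/-- complex coordinates -/
def CXE : Prop := ∀ (F : Type) [NormedAddCommGroup F] [InnerProductSpace ℝ F]
  [FiniteDimensional ℝ F] (π : F →L[ℝ] F), Op π → Even (Module.finrank ℝ F) →
  Even (Module.finrank ℝ (LinearMap.range (π : F →ₗ[ℝ] F))) →
  ∃ (n : ℕ) (e : Cn n ≃ₗᵢ[ℝ] F) (π' : Cn n →L[ℂ] Cn n), (∀ y, π' (π' y) = π' y) ∧
    (∀ y z, inner ℂ (π' y) z = inner ℂ y (π' z)) ∧ ∀ y, e (π' y) = π (e y)

end Crest.Agent.N218.En

end
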