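import Crest.Agent.N218.En.Defs
import Crest.Agent.N218.C.Fs
import Crest.Agent.N218.C.Toe

/-! Row 218, END wrapper (helper7): from the output of block (C) to gradient data. -/

set_option autoImplicit false
open Set Topology
open scoped InnerProductSpace ContDiff

noncomputable section

namespace Crest.Agent.N218.En
open Pm Sk C

namespace Dg

theorem thick {E : Type*} [NormedAddCommGroup E] {K O : Set E} (hK : IsCompact K) (hO : IsOpen O)
    (h : K ⊆ O) : ∃ δ > 0, ∀ k ∈ K, ∀ u, ‖u - k‖ ≤ δ → u ∈ O := by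
  obtain ⟨δ, d, e⟩ := hK.exists_cthickening_subset_open hO h
  exact ⟨δ, d, fun k hk u hu => e (Metric.mem_cthickening_of_dist_le u k δ K hk
    (by rwa [dist_eq_norm]))⟩

theorem tube {T E : Type*} [TopologicalSpace T] [CompactSpace T] [NormedAddCommGroup E]
    {O : Set (T × E)} (hO : IsOpen O) (h : ∀ t, (t, (0 : E)) ∈ O) :
    ∃ δ > 0, ∀ t v, ‖v‖ ≤ δ → (t, v) ∈ O := by
  obtain ⟨u, v, -, hv, a, b, c⟩ := generalized_tube_lemma isCompact_univ isCompact_singleton hO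
    (show (univ : Set T) ×ˢ {(0 : E)} ⊆ O from fun p hp => by
      have := h p.1; rwa [← show p.2 = 0 from hp.2] at this)
  obtain ⟨δ, d, e⟩ := Metric.nhds_basis_closedBall.mem_iff.1 (hv.mem_nhds (b rfl))
  exact ⟨δ, d, fun t w hw => c ⟨a (mem_univ t), e (mem_closedBall_zero_iff.2 hw)⟩⟩

variable {Z : Type} [NormedAddCommGroup Z] [InnerProductSpace ℝ Z]

/-- the gradient data over `T` -/
def mk {T : Type} (ρ : X × Y → ℝ) (r : X × Y → Y) (B : Z →L[ℝ] Z) (ξ : X × Z → X)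
    (γ : X × Fb Z → ℝ) (gr : X × Fb Z → Fb Z) (zz : X → Fb Z) (k : ℝ × X × Y → Y) (σ : T → S11)
    (s : T → ℝ) (b C δ ρ₀ : ℝ) : Gb T (Fb Z) where
  p₁ := pm 0 ((1 / 2 : ℝ) • (1 - B))
  pp := pm 0 ((1 / 2 : ℝ) • (1 + B))
  D := {w | ρ (ξ (σ w.1, (w.2 + zz (σ w.1)).snd), (w.2 + zz (σ w.1)).fst) ≤ b}
  Rr := fun w => Rt (fun p => k (s w.1, p)) (fun z => ξ (σ w.1, z))
    (Rt r (fun z => ξ (σ w.1, z)) (w.2 + zz (σ w.1))) - zz (σ w.1)
  g := fun w => (1 / 2 * ⟪B (w.2 + zz (σ w.1)).snd, (w.2 + zz (σ w.1)).snd⟫_ℝ +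
    γ (σ w.1, w.2 + zz (σ w.1))) - (1 / 2 * ⟪B (zz (σ w.1)).snd, (zz (σ w.1)).snd⟫_ℝ +
    γ (σ w.1, zz (σ w.1)))
  gr := fun w => Bz B (w.2 + zz (σ w.1)) + gr (σ w.1, w.2 + zz (σ w.1))
  H := fun t => Toe.BL B + (fderiv ℝ gr (σ t, zz (σ t))).comp (ContinuousLinearMap.inr ℝ X (Fb Z))
  C := C
  δ := δ
  ρ := ρ₀

theorem op_pm {π : Z →L[ℝ] Z} (h : Op π) : Op (pm (0 : Y →L[ℝ] Y) π) :=
  ⟨fun v => Fb.ext rfl (h.id _), fun v w => by simp [WithLp.prod_inner_apply, pm_apply, h.sy]⟩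

variable [CompleteSpace Z] {ρ : X × Y → ℝ} {r : X × Y → Y} {w R c : ℝ} {B : Z →L[ℝ] Z}
  {ξ : X × Z → X} {γ : X × Fb Z → ℝ} {gr : X × Fb Z → Fb Z} {zz : X → Fb Z}
  {k rs : ℝ × X × Y → Y}

theorem n1 (x : S11) : ‖(x : X)‖ = 1 := mem_sphere_zero_iff_norm.1 x.2

theorem one (h : Dyn ρ r w c B ξ γ gr zz) (x : S11) : One ρ r w c (fun z => ξ (x, z))
    (fun p => 1 / 2 * ⟪B p.snd, p.snd⟫_ℝ + γ (x, p)) (fun p => Bz B p + gr (x, p)) := by
  simpa only [one_smul, one_mul] using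
    h.one x 1 1 (n1 x) ⟨zero_le_one, le_rfl⟩ ⟨zero_le_one, le_rfl⟩ (Or.inr rfl)

theorem cz (h : Dyn ρ r w c B ξ γ gr zz) : Continuous fun x : S11 => zz x :=
  h.zc.domRestrict

theorem lx (h : Dyn ρ r w c B ξ γ gr zz) (x : S11) (a b : Fb Z) :
    ‖((ξ (x, a.snd), a.fst) : X × Y) - (ξ (x, b.snd), b.fst)‖ ≤ (|c| + 1) * ‖a - b‖ := by
  have f1 := WithLp.norm_fst_le (p := 2) Y (a - b)
  have f2 := WithLp.norm_snd_le (p := 2) Y (a - b)
  have f3 := ((one h x).lx a.snd b.snd).trans (mul_le_mul (le_abs_self c) f2 (norm_nonneg _)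
    (abs_nonneg c))
  rw [Prod.norm_def]
  refine max_le (f3.trans ?_) (le_trans f1 ?_) <;> nlinarith [norm_nonneg (a - b), abs_nonneg c]

theorem cpt (H : Ret ρ r w R) {b : ℝ} (hb : b ≤ w) : IsCompact {u : X × Y | ‖u.1‖ = 1 ∧ ρ u ≤ b} :=
  ((isCompact_sphere (0 : X) 1).prod (isCompact_closedBall (0 : Y) R)).of_isClosed_subset
    ((isClosed_eq continuous_fst.norm continuous_const).inter (isClosed_le H.ρc continuous_const))
    fun u hu => ⟨mem_sphere_zero_iff_norm.2 hu.1,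
      mem_closedBall_zero_iff.2 (H.bl u.1 u.2 hu.1 (hu.2.trans hb)).le⟩

/-- a margin around a compact sublevel set -/
theorem mar (h : Dyn ρ r w c B ξ γ gr zz) (H : Ret ρ r w R) {b : ℝ} (hb : b ≤ w) {O : Set (X × Y)}
    (hO : IsOpen O) (e : ∀ u : X × Y, ‖u.1‖ = 1 → ρ u ≤ b → u ∈ O) : ∃ δ > 0, ∀ (x : S11)
      (p p' : Fb Z), ρ (ξ (x, p.snd), p.fst) ≤ b → ‖p' - p‖ ≤ δ → (ξ (x, p'.snd), p'.fst) ∈ O := by
  obtain ⟨δ, d, m⟩ := thick (cpt H hb) hO fun u hu => e u hu.1 hu.2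
  refine ⟨δ / (|c| + 1), by positivity, fun x p p' a b => m (ξ (x, p.snd), p.fst)
    ⟨(one h x).un p.snd, a⟩ (ξ (x, p'.snd), p'.fst) ((lx h x p' p).trans ?_)⟩
  rwa [le_div_iff₀' (by positivity)] at b

theorem ok (h : Dyn ρ r w c B ξ γ gr zz) (K : Kf ρ r w c ξ γ k rs) (H : Ret ρ r w R) {T : Type}
    [TopologicalSpace T] {σ : T → S11} {s : T → ℝ} (hσ : Continuous σ) (hs : Continuous s)
    (s1 : ∀ t, s t ∈ Icc (0 : ℝ) 1) {b N δ ρ₀ : ℝ} (b0 : 0 ≤ b) (b1 : b ≤ w / 2)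
    (b2 : b = w / 2 ∨ ∀ t, s t = 1) (hN : ∀ x : S11, ‖zz x‖ ≤ N) (N0 : 0 ≤ N) (d0 : 0 < δ)
    (r0 : 0 < ρ₀) (hd : ∀ (x : S11) (p p' : Fb Z), ρ (ξ (x, p.snd), p.fst) ≤ w / 2 →
      ‖p' - p‖ ≤ δ → ρ (ξ (x, p'.snd), p'.fst) ≤ w)
    (hr : ∀ (x : S11) v, ‖v‖ ≤ 2 * ρ₀ → ρ (ξ (x, (v + zz x).snd), (v + zz x).fst) ≤ 0) :
    (mk ρ r B ξ γ gr zz k σ s b (2 * |c| + |R| + N + ρ₀) δ ρ₀).Ok := by
  have c0 := abs_nonneg c
  have c1 := le_abs_self c
  have R0 := abs_nonneg R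
  have R1 := le_abs_self R
  have w0 := H.w0
  have un := fun x : S11 => (one h x).un
  have z1 : Continuous fun u : T × Fb Z => zz (σ u.1) := (cz h).comp (hσ.comp continuous_fst)
  have z2 : Continuous fun u : T × Fb Z => u.2 + zz (σ u.1) := continuous_snd.add z1
  have x1 : Continuous fun u : T × Fb Z => (σ u.1 : X) :=
    continuous_subtype_val.comp (hσ.comp continuous_fst)
  have y1 := (WithLp.continuous_fst 2 Y Z).comp z2
  have y2 := (WithLp.continuous_snd 2 Y Z).comp z2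
  have y3 := (WithLp.continuous_snd 2 Y Z).comp z1
  have x2 := h.sx.continuous.comp (x1.prodMk y2)
  have id' : ∀ (t : T) (v : Fb Z), ρ (ξ (σ t, (v + zz (σ t)).snd), (v + zz (σ t)).fst) ≤ 0 →
      (mk ρ r B ξ γ gr zz k σ s b (2 * |c| + |R| + N + ρ₀) δ ρ₀).Rr (t, v) = v := fun t v e => by
    have a : Rt r (fun z => ξ (σ t, z)) (v + zz (σ t)) = v + zz (σ t) :=
      Fb.ext (H.fix _ _ (un _ _) e) rfl
    refine sub_eq_iff_eq_add.2 ?_
    rw [a]
    exact Fb.ext (K.kf _ _ _ (un _ _) e) rfl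
  refine ⟨op_pm ⟨fun v => ?_, fun v u => ?_⟩, op_pm ⟨fun v => ?_, fun v u => ?_⟩,
    fun v => ⟨Fb.ext rfl ?_, Fb.ext rfl ?_⟩, by simp only [mk]; linarith, d0, r0,
    by simp only [mk]; linarith, isClosed_le (H.ρc.comp (x2.prodMk y1)) continuous_const,
    fun u hu => ?_, ?_, fun u => ?_, fun u => Fb.ext rfl (by simp [mk]; module),
    fun u => Fb.ext rfl (by simp [mk]; module), ?_, ((cont_Bz B).comp z2).add
      (h.sr.continuous.comp (x1.prodMk z2)), fun t v => ?_, fun u => ?_, fun t v v' => ?_,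
    fun t v v' a e => ?_, fun u => ?_, fun u a e => ?_,
    fun u a => ⟨(hr _ _ a).trans b0, id' _ _ (hr _ _ a)⟩, fun t => ⟨by simp [mk], ?_⟩⟩
  · simp [h.sq]; module
  · simp [inner_sub_left, inner_sub_right, inner_smul_left, inner_smul_right, h.sy]
  · simp [h.sq]; module
  · simp [inner_add_left, inner_add_right, inner_smul_left, inner_smul_right, h.sy]
  · simp [mk, h.sq]; module
  · simp [mk, h.sq]; module
  · have e : u.2 - (pm 0 ((1 / 2 : ℝ) • (1 - B))) u.2 - (pm 0 ((1 / 2 : ℝ) • (1 + B))) u.2 =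
        WithLp.toLp 2 ((u.2 + zz (σ u.1)).fst - (zz (σ u.1)).fst, 0) :=
      Fb.ext (by simp) (by simp; module)
    have a := H.bl _ _ (un _ _) (le_trans hu (by linarith : b ≤ w))
    have d := (WithLp.norm_fst_le (p := 2) Y (zz (σ u.1))).trans (hN _)
    simp only [mk]
    rw [e, WithLp.norm_toLp_fst]
    linarith [norm_sub_le (u.2 + zz (σ u.1)).fst (zz (σ u.1)).fst]
  · exact ((WithLp.prod_continuous_toLp 2 Y Z).comp ((K.kc.comp ((hs.comp continuous_fst).prodMk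
      (x2.prodMk (H.rs.continuous.comp (x2.prodMk y1))))).prodMk y2)).sub z1
  · have a := H.half _ (u.2 + zz (σ u.1)).fst (un (σ u.1) (u.2 + zz (σ u.1)).snd)
    have d := K.kr _ (s1 u.1) _ _ (un _ _) (a.trans (by linarith))
    simp only [mk, mem_ofPred_eq, sub_add_cancel, Rt_fst, Rt_snd]
    rw [d]
    rcases b2 with e | e
    · linarith [mul_nonneg (s1 u.1).1 (le_max_right (ρ (ξ (σ u.1, (u.2 + zz (σ u.1)).snd),
        r (ξ (σ u.1, (u.2 + zz (σ u.1)).snd), (u.2 + zz (σ u.1)).fst))) 0)]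
    · rw [e, one_mul]
      linarith [le_max_left (ρ (ξ (σ u.1, (u.2 + zz (σ u.1)).snd),
        r (ξ (σ u.1, (u.2 + zz (σ u.1)).snd), (u.2 + zz (σ u.1)).fst))) 0]
  · exact ((continuous_const.mul ((B.continuous.comp y2).inner y2)).add
      (h.sg.continuous.comp (x1.prodMk z2))).sub ((continuous_const.mul
      ((B.continuous.comp y3).inner y3)).add (h.sg.continuous.comp (x1.prodMk z1)))
  · have := ((one h (σ t)).gd (v + zz (σ t))).hasFDerivAt.comp v
      ((hasFDerivAt_id v).add_const (zz (σ t)))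
    exact hasGradientAt_iff_hasFDerivAt.2 ((this.sub_const (1 / 2 * ⟪B (zz (σ t)).snd,
      (zz (σ t)).snd⟫_ℝ + γ (σ t, zz (σ t)))).congr_fderiv (ContinuousLinearMap.comp_id _))
  · have e : (mk ρ r B ξ γ gr zz k σ s b (2 * |c| + |R| + N + ρ₀) δ ρ₀).gr u -
        ((pm 0 ((1 / 2 : ℝ) • (1 + B))) u.2 - (pm 0 ((1 / 2 : ℝ) • (1 - B))) u.2) =
        WithLp.toLp 2 (0, B (zz (σ u.1)).snd) + gr (σ u.1, u.2 + zz (σ u.1)) :=
      Fb.ext (by simp [mk]) (by simp [mk]; module)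
    have d := (WithLp.norm_snd_le (p := 2) Y (zz (σ u.1))).trans (hN _)
    refine (congrArg norm e).trans_le ((norm_add_le _ _).trans ?_)
    rw [WithLp.norm_toLp_snd, h.norm_B]
    simp only [mk]
    linarith [h.gb _ (u.2 + zz (σ u.1)) (n1 (σ u.1))]
  · have := (one h (σ t)).lg (v + zz (σ t)) (v' + zz (σ t))
    rw [add_sub_add_right_eq_sub] at this
    exact this.trans (mul_le_mul_of_nonneg_right (by simp only [mk]; linarith) (norm_nonneg _))
  · have a1 := hd (σ t) _ (v' + zz (σ t)) (le_trans a b1) (by rwa [add_sub_add_right_eq_sub])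
    have a2 := (one h (σ t)).mono _ a1
    have a3 := K.kg _ (s1 t) _ _ _ (n1 (σ t)) ((H.half _ (v' + zz (σ t)).fst
      (un (σ t) (v' + zz (σ t)).snd)).trans (by linarith))
    simp only [mk, sub_add_cancel, Rt_snd] at a2 ⊢
    exact sub_le_sub_right ((add_le_add_right a3 _).trans a2) _
  · simp only [mk, sub_add_cancel, Rt_snd]
    linarith [(abs_le.1 (K.gb _ (u.2 + zz (σ u.1)) (n1 (σ u.1)))).1,
      (abs_le.1 (K.gb _ (Rt (fun p => k (s u.1, p)) (fun z => ξ (σ u.1, z))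
        (Rt r (fun z => ξ (σ u.1, z)) (u.2 + zz (σ u.1)))) (n1 (σ u.1)))).2]
  · exact add_eq_right.1 ((h.zu _ _ (n1 _) (lt_of_le_of_lt a (by linarith))).1 e)
  · simpa [mk] using (h.zu _ _ (n1 (σ t)) ((h.zi _ (n1 _)).trans w0)).2 rfl

theorem hsym (h : Dyn ρ r w c B ξ γ gr zz) (u : X × Fb Z) (a b : Fb Z) :
    ⟪fderiv ℝ gr u (0, a), b⟫_ℝ = fderiv ℝ (fderiv ℝ γ) u (0, a) (0, b) := by
  have e : (fun u => ⟪gr u, b⟫_ℝ) = fun u => fderiv ℝ γ u (0, b) := funext fun u => by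
    have := ((h.sg.differentiable (by simp) u).hasFDerivAt.comp u.2
      (hasFDerivAt_prodMk_right u.1 u.2)).unique (h.gd u.1 u.2).hasFDerivAt
    exact (ContinuousLinearMap.ext_iff.1 this b).symm
  have a1 := ((h.sr.differentiable (by simp) u).hasFDerivAt.inner ℝ (hasFDerivAt_const b u))
  rw [e] at a1
  simpa using ContinuousLinearMap.ext_iff.1 (a1.unique (has_d2a h.sg u (0, b))) (0, a)

end Dg

open Dg in
theorem dg : DG := by
  intro Φ M c B ξ γ gr zz k rs h K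
  have H : Ret Φ.ρ Φ.r Φ.w Φ.R := Φ.ret le_rfl
  have w0 := H.w0
  have z1 := cz h
  obtain ⟨N, hN⟩ := isCompact_univ.exists_bound_of_continuousOn z1.continuousOn
  have z2 : Continuous fun u : S11 × Fb (Eu M) => ((u.1 : X), u.2 + zz u.1) :=
    (continuous_subtype_val.comp continuous_fst).prodMk (continuous_snd.add (z1.comp continuous_fst))
  obtain ⟨ρ₁, r0, hr⟩ := tube (isOpen_lt (H.ρc.comp ((h.sx.continuous.comp (z2.fst.prodMk
    ((WithLp.continuous_snd 2 Y _).comp z2.snd))).prodMk ((WithLp.continuous_fst 2 Y _).comp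
    z2.snd))) continuous_const) fun x => by simpa using h.zi x (n1 x)
  obtain ⟨δ₁, d1, m1⟩ := mar h H (half_le_self w0.le) (isOpen_lt H.ρc (continuous_const (y := Φ.w)))
    fun u _ a => lt_of_le_of_lt a (half_lt_self w0)
  obtain ⟨δ₂, d2, m2⟩ := mar h H w0.le (isOpen_lt ((K.kc.comp ((continuous_const (y := (1 : ℝ))).prodMk
    (continuous_fst.prodMk H.rs.continuous))).sub continuous_snd).norm
    (continuous_const (y := ρ₁ / 2))) fun u a b => by
      simp [H.fix u.1 u.2 a b, K.kf 1 u.1 u.2 a b, r0]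
  have N0 : 0 ≤ |N| := abs_nonneg N
  have ok' := fun {T : Type} [TopologicalSpace T] {σ : T → S11} {s : T → ℝ} (a : Continuous σ)
    (b : Continuous s) s1 {b' : ℝ} b0 b1 b2 => ok h K H a b s1 (b := b') (δ := min δ₁ δ₂) b0 b1 b2
      (fun x => (hN x trivial).trans (le_abs_self N)) N0 (lt_min d1 d2) (half_pos r0)
      (fun x p p' a b => (m1 x p p' a (b.trans (min_le_left _ _))).le)
      fun x v a => (hr x v (by linarith)).le
  have cD : Continuous (fderiv ℝ gr) := h.sr.continuous_fderiv (by simp)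
  refine ⟨_, _, ok' (T := S11 × unitInterval) (σ := Prod.fst) (s := fun t => t.2) continuous_fst
    (continuous_subtype_val.comp continuous_snd)
    (fun t => t.2.2) (half_pos w0).le le_rfl (Or.inl rfl), ok' (σ := id) (s := fun _ => 1)
    continuous_id continuous_const (fun _ => ⟨zero_le_one, le_rfl⟩) le_rfl (half_pos w0).le
    (Or.inr fun _ => rfl), ⟨⟨?_, fun x v u => ?_, fun x v e => h.zh x v (n1 x) e, fun u a => ?_⟩,
    fun θ t0 => ?_, fun x v v' a b => ?_⟩, z1, fun ε x v => ⟨?_, rfl⟩⟩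
  · exact continuous_const.add ((cD.comp (continuous_subtype_val.prodMk z1)).clm_comp
      continuous_const)
  · have a := hsym h (x, zz x) v u
    have b := hsym h (x, zz x) u v
    rw [d2_symm h.sg, ← a, real_inner_comm] at b
    simp only [mk, id, add_apply, ContinuousLinearMap.comp_apply, ContinuousLinearMap.inr_apply,
      inner_add_left, inner_add_right, Toe.BL_apply, b, Toe.inner_Bz]
    rw [real_inner_comm (Bz B u), Toe.inner_Bz, h.sy, real_inner_comm]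
  · have un := (one h u.1).un (u.2 + zz u.1).snd
    have e : Rt Φ.r (fun z => ξ (u.1, z)) (u.2 + zz u.1) = u.2 + zz u.1 :=
      Fb.ext (H.fix _ _ un a) rfl
    refine sub_eq_iff_eq_add.2 ?_
    simp only [id]
    rw [e]
    exact Fb.ext (K.kf _ _ _ un a) rfl
  · obtain ⟨δ, d, m⟩ := tube (isOpen_lt ((cD.comp z2).sub (cD.comp
      ((continuous_subtype_val.prodMk z1).comp continuous_fst))).norm (continuous_const (y := θ)))
      fun x => by simpa using t0
    refine ⟨δ, d, fun x v a => ?_⟩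
    have D : ∀ u : Fb (Eu M), HasFDerivAt (fun u => gr (x, u + zz x))
        ((fderiv ℝ gr (x, u + zz x)).comp (ContinuousLinearMap.inr ℝ X _)) u := fun u =>
      (h.sr.differentiable (by simp) _).hasFDerivAt.comp u
        (((hasFDerivAt_prodMk_right (𝕜 := ℝ) (x : X) (u + zz x)).comp u
          ((hasFDerivAt_id u).add_const (zz x))).congr_fderiv (ContinuousLinearMap.comp_id _))
    have := (convex_closedBall (0 : Fb (Eu M)) δ).norm_image_sub_le_of_norm_hasFDerivWithin_le'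
      (φ := (fderiv ℝ gr (x, zz x)).comp (ContinuousLinearMap.inr ℝ X _)) (C := θ)
      (fun u _ => (D u).hasFDerivWithinAt) (fun u hu => by
        rw [← ContinuousLinearMap.sub_comp]
        refine ContinuousLinearMap.opNorm_le_bound _ t0.le fun y => ?_
        simpa using (ContinuousLinearMap.le_opNorm _ ((0 : X), y)).trans (mul_le_mul_of_nonneg_right
          (m x u (mem_closedBall_zero_iff.1 hu)).le (norm_nonneg _)))
      (Metric.mem_closedBall_self d.le) (mem_closedBall_zero_iff.2 a)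
    have z0 := eq_neg_of_add_eq_zero_right ((h.zu _ _ (n1 x) ((h.zi _ (n1 _)).trans w0)).2 rfl)
    rw [zero_add, sub_zero, z0] at this
    refine le_of_eq_of_le (congrArg norm ?_) this
    simp only [mk, id, add_apply, ← Toe.BL_apply (B := B), map_add]
    abel
  · have := m2 x (v + zz x) (v' + zz x) a
      (by rw [add_sub_add_right_eq_sub]; exact b.trans (min_le_right _ _))
    have e : (mk Φ.ρ Φ.r B ξ γ gr zz k id (fun _ => 1) 0 (2 * |c| + |Φ.R| + |N| + ρ₁ / 2)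
        (min δ₁ δ₂) (ρ₁ / 2)).Rr (x, v') - v' = WithLp.toLp 2 (k (1, ξ (x, (v' + zz x).snd),
          Φ.r (ξ (x, (v' + zz x).snd), (v' + zz x).fst)) - (v' + zz x).fst, 0) :=
      Fb.ext (by simp [mk]; abel) (by simp [mk])
    rw [e, WithLp.norm_toLp_fst]
    exact this.le
  · simp only [Gb.f, mk, fe, fm]
    rw [sub_add_eq_add_sub]
    congr 1
    exact Fb.ext (K.k0 _ _ ((one h x).un _)) rfl

end Crest.Agent.N218.En
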