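import Crest.Agent.N218.En.Defs

/-! Row 218, END wrapper (helper73): the Hessian at the critical point. -/

set_option autoImplicit false
set_option linter.unusedSectionVars false

open Set Topology Filter
open scoped InnerProductSpace ContDiff

noncomputable section

namespace Crest.Agent.N218.En.Dg
open Sk

variable {Z : Type} [NormedAddCommGroup Z] [InnerProductSpace ℝ Z] [FiniteDimensional ℝ Z]
  [CompleteSpace Z]

/-- the Hessian -/
def hx (B : Z →L[ℝ] Z) (gr : C.X × C.Fb Z → C.Fb Z) (zz : C.X → C.Fb Z) (x : C.X) :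
    C.Fb Z →L[ℝ] C.Fb Z :=
  pm 0 B + (fderiv ℝ gr (x, zz x)).comp (ContinuousLinearMap.inr ℝ _ _)

theorem hx_apply (B : Z →L[ℝ] Z) (gr : C.X × C.Fb Z → C.Fb Z) (zz : C.X → C.Fb Z) (x : C.X)
    (v : C.Fb Z) : hx B gr zz x v = C.Bz B v + fderiv ℝ gr (x, zz x) (0, v) := rfl

variable {ρ : _} {r : _} {w c : ℝ} {B : Z →L[ℝ] Z} {ξ : _} {γ : _} {gr : C.X × C.Fb Z → C.Fb Z}
  {zz : C.X → C.Fb Z} (h : C.Dyn ρ r w c B ξ γ gr zz)
include h

theorem zz_ct : Continuous fun x : S11 => zz x := continuousOn_iff_continuous_domRestrict.1 h.zc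

theorem gr_d (x : C.X) (p : C.Fb Z) : HasFDerivAt (fun p => gr (x, p))
    ((fderiv ℝ gr (x, p)).comp (ContinuousLinearMap.inr ℝ _ _)) p :=
  (h.sr.differentiable (by simp) _).hasFDerivAt.comp p (hasFDerivAt_prodMk_right x p)

theorem hx_ct : Continuous fun x : S11 => hx B gr zz x :=
  continuous_const.add (((h.sr.continuous_fderiv (by simp)).comp
    (continuous_subtype_val.prodMk (zz_ct h))).clm_comp continuous_const)

theorem hx_sy (x : S11) (v v' : C.Fb Z) : ⟪hx B gr zz x v, v'⟫_ℝ = ⟪v, hx B gr zz x v'⟫_ℝ := by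
  have a := second_derivative_symmetric (fun p => (h.gd x p).hasFDerivAt)
    ((innerSL ℝ (E := C.Fb Z)).hasFDerivAt.comp (zz x) (gr_d h x (zz x))) v v'
  have b : ⟪C.Bz B v, v'⟫_ℝ = ⟪v, C.Bz B v'⟫_ℝ := by
    simp [C.Bz, WithLp.prod_inner_apply, h.sy]
  rw [hx_apply, hx_apply, inner_add_left, inner_add_right, b, real_inner_comm (fderiv ℝ gr _ _) v]
  exact congrArg _ a

theorem hx_inj (x : S11) (v : C.Fb Z) (e : hx B gr zz x v = 0) : v = 0 :=
  h.zh x v (mem_sphere_zero_iff_norm.1 x.2) e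

theorem hx_df (hw : 0 < w) (θ : ℝ) (h0 : 0 < θ) : ∃ d > 0, ∀ (x : S11) (v : C.Fb Z), ‖v‖ ≤ d →
    ‖C.Bz B (v + zz x) + gr (x, v + zz x) - hx B gr zz x v‖ ≤ θ * ‖v‖ := by
  have z := zz_ct h
  have f := h.sr.continuous_fderiv (by simp)
  have k : Continuous fun a : C.Fb Z × S11 =>
      ‖(fderiv ℝ gr (a.2, a.1 + zz a.2)).comp (ContinuousLinearMap.inr ℝ C.X (C.Fb Z)) -
        (fderiv ℝ gr (a.2, zz a.2)).comp (ContinuousLinearMap.inr ℝ C.X (C.Fb Z))‖ :=
    (((f.comp ((continuous_subtype_val.comp continuous_snd).prodMk (continuous_fst.add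
      (z.comp continuous_snd)))).clm_comp continuous_const).sub ((f.comp
      ((continuous_subtype_val.comp continuous_snd).prodMk (z.comp continuous_snd))).clm_comp
        continuous_const)).norm
  have := (isCompact_univ (X := S11)).eventually_forall_of_forall_eventually (x₀ := (0 : C.Fb Z))
    (P := fun v x => ‖(fderiv ℝ gr (x, v + zz x)).comp (ContinuousLinearMap.inr ℝ C.X (C.Fb Z)) -
      (fderiv ℝ gr (x, zz x)).comp (ContinuousLinearMap.inr ℝ C.X (C.Fb Z))‖ < θ)
    fun x _ => k.continuousAt.eventually_lt continuousAt_const (by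
      simp only [zero_add, sub_self]
      exact (norm_zero (E := C.Fb Z →L[ℝ] C.Fb Z)).trans_lt h0)
  obtain ⟨d, d0, hd⟩ := Metric.nhds_basis_closedBall.eventually_iff.1 this
  refine ⟨d, d0, fun x v hv => ?_⟩
  have n := mem_sphere_zero_iff_norm.1 x.2
  have e := (h.zu x (zz x) n ((h.zi x n).trans hw)).2 rfl
  have m := (convex_closedBall (0 : C.Fb Z) d).norm_image_sub_le_of_norm_hasFDerivWithin_le'
    (f := fun v => gr (x, v + zz x)) (fun u _ => ((hasFDerivAt_comp_add_right (zz x)).2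
      (gr_d h x (u + zz x))).hasFDerivWithinAt) (fun u hu => (hd hu x trivial).le)
    (Metric.mem_closedBall_self d0.le) (mem_closedBall_zero_iff.2 hv)
  have b : C.Bz B (v + zz x) = C.Bz B v + C.Bz B (zz x) := map_add (pm (0 : C.Y →L[ℝ] C.Y) B) _ _
  rw [zero_add, sub_zero] at m
  rw [hx_apply, b, eq_neg_of_add_eq_zero_left e]
  refine le_trans (le_of_eq (congrArg _ ?_)) m
  change _ = _ - _ - fderiv ℝ gr (x, zz x) (0, v)
  abel

end Crest.Agent.N218.En.Dg

end
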