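import Crest.Agent.N218.En.Defs
import Crest.Agent.N218.D7.Dim

/-!
# Row 218, END (helper37): the two unstable spaces have the same real dimension
-/

set_option autoImplicit false
set_option linter.unusedVariables false
set_option linter.unusedSectionVars false

open Set OnePoint unitInterval Module Metric

noncomputable section

namespace Crest.Agent.N218.En.Dm

open K D7.Dm

variable {T A B : Type} [TopologicalSpace T] [NormedAddCommGroup A] [NormedSpace ℝ A]
  [FiniteDimensional ℝ A] [NormedAddCommGroup B] [NormedSpace ℝ B] [FiniteDimensional ℝ B]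

/-- proper partial maps -/
structure Pp (O : Set (T × A)) (f : T × A → B) : Prop where
  op : IsOpen O
  ct : ContinuousOn f O
  pr : ∀ R, ∃ S, IsClosed S ∧ S ⊆ O ∧ ∃ C, ∀ w ∈ O, ‖f w‖ ≤ R → w ∈ S ∧ ‖w.2‖ ≤ C

theorem Pp.key {O : Set (T × A)} {f : T × A → B} (h : Pp O f) : Continuous (opx (pe O f)) := by
  have i1 : ∀ {w}, w ∈ O → pe O f w = f w := fun a => if_pos a
  have i2 : ∀ {w}, w ∉ O → pe O f w = ∞ := fun a => if_neg a
  refine continuous_opx (continuous_def.2 fun U hU => ?_) fun K hK => ?_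
  · by_cases i : ∞ ∈ U
    · obtain ⟨c1, c2⟩ := (isOpen_iff_of_mem i).1 hU
      obtain ⟨R, hR⟩ := c2.isBounded.exists_norm_le
      obtain ⟨S, s1, s2, C, s3⟩ := h.pr R
      rw [← isClosed_compl_iff]
      convert (h.ct.mono s2).preimage_isClosed_of_isClosed s1 c1 using 1
      ext w
      by_cases o : w ∈ O
      · simp only [mem_compl_iff, mem_preimage, i1 o, mem_inter_iff]
        exact ⟨fun k => ⟨(s3 w o (hR _ k)).1, k⟩, fun k => k.2⟩
      · simp only [mem_compl_iff, mem_preimage, i2 o, mem_inter_iff]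
        exact ⟨fun k => (k i).elim, fun k => (o (s2 k.1)).elim⟩
    · convert h.ct.isOpen_inter_preimage h.op ((isOpen_iff_of_notMem i).1 hU) using 1
      ext w
      by_cases o : w ∈ O
      · simp only [mem_preimage, i1 o, mem_inter_iff, o, true_and]
      · simp only [mem_preimage, i2 o, mem_inter_iff, o, false_and, i]
  · obtain ⟨R, hR⟩ := hK.isBounded.exists_norm_le
    obtain ⟨S, -, -, C, s3⟩ := h.pr R
    refine ⟨closedBall 0 C, isCompact_closedBall _ _, fun p w w' n k m => n ?_⟩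
    by_cases o : (p, w) ∈ O
    · rw [i1 o, coe_eq_coe] at k
      exact mem_closedBall_zero_iff.2 (s3 _ o (k ▸ hR _ m)).2
    · rw [i2 o] at k; exact (infty_ne_coe _ k).elim

/-- the doubled domain -/
def db (O : Set (T × A)) : Set (T × (A × A)) := {w | (w.1, w.2.1) ∈ O ∧ (w.1, w.2.2) ∈ O}
/-- the doubled map -/
def df (f : T × A → B) (w : T × (A × A)) : B × B := (f (w.1, w.2.1), f (w.1, w.2.2))

theorem Pp.two {O : Set (T × A)} {f : T × A → B} (h : Pp O f) : Pp (db O) (df f) := by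
  have c1 : Continuous fun w : T × (A × A) => (w.1, w.2.1) := by fun_prop
  have c2 : Continuous fun w : T × (A × A) => (w.1, w.2.2) := by fun_prop
  refine ⟨(h.op.preimage c1).inter (h.op.preimage c2), (h.ct.comp c1.continuousOn fun _ a =>
    a.1).prodMk (h.ct.comp c2.continuousOn fun _ a => a.2), fun R => ?_⟩
  obtain ⟨S, s1, s2, C, s3⟩ := h.pr R
  refine ⟨db S, (s1.preimage c1).inter (s1.preimage c2), fun _ a => ⟨s2 a.1, s2 a.2⟩, C,
    fun w a b => ?_⟩
  have u := s3 _ a.1 ((norm_fst_le (df f w)).trans b)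
  have v := s3 _ a.2 ((norm_snd_le (df f w)).trans b)
  exact ⟨⟨u.1, v.1⟩, max_le u.2 v.2⟩

theorem dim2 (h : finrank ℝ A ≠ 0) (f : C(OnePoint (A × A), OnePoint (B × B)))
    (g : C(OnePoint (B × B), OnePoint (A × A))) (hf : f ∞ = ∞) (hg : g ∞ = ∞)
    (H : (ContinuousMap.id _).Homotopy (g.comp f)) : finrank ℝ A = finrank ℝ B := by
  let a : (A × A) ≃L[ℝ] (Fin (finrank ℝ A) → ℂ) := .ofFinrankEq (by
    rw [finrank_real_of_complex, finrank_fin_fun, finrank_prod, two_mul])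
  let b : (B × B) ≃L[ℝ] (Fin (finrank ℝ B) → ℂ) := .ofFinrankEq (by
    rw [finrank_real_of_complex, finrank_fin_fun, finrank_prod, two_mul])
  have := dimK (by rwa [finrank_fin_fun]) ((Nf.om b).comp (f.comp (Nf.om a.symm)))
    ((Nf.om a).comp (g.comp (Nf.om b.symm))) (congrArg (Nf.om b) hf) (congrArg (Nf.om a) hg)
    ⟨(Nf.om a).comp (H.toContinuousMap.comp ((ContinuousMap.id I).prodMap (Nf.om a.symm))),
      fun y => (congrArg (Nf.om a) (H.apply_zero _)).trans (Nf.om_symm a.symm y),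
      fun y => congrArg (Nf.om a) ((H.apply_one _).trans (congrArg g (Nf.om_symm b _).symm))⟩
  rwa [finrank_fin_fun, finrank_fin_fun] at this

/-- **invariance of dimension** for proper partial maps -/
theorem dimP (h : finrank ℝ A ≠ 0) {O : Set (Unit × A)} {f : Unit × A → B} {g : Unit × B → A}
    {O' : Set (I × A)} {H : I × A → A} (hf : Pp O f) (hg : Pp univ g) (hH : Pp O' H)
    (h0 : ∀ y, (0, y) ∈ O' ∧ H (0, y) = y) (h1 : ∀ y, ((1, y) ∈ O' ↔ ((), y) ∈ O) ∧
      (((), y) ∈ O → H (1, y) = g ((), f ((), y)))) : finrank ℝ A = finrank ℝ B := by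
  refine dim2 h ⟨fun y => opx (pe (db O) (df f)) ((), y), hf.two.key.comp (.prodMk_right ())⟩
    ⟨fun y => opx (pe (db univ) (df g)) ((), y), hg.two.key.comp (.prodMk_right ())⟩
    rfl rfl ⟨⟨_, hH.two.key⟩, fun y => ?_, fun y => ?_⟩ <;> induction y using OnePoint.rec
  · rfl
  · rename_i y
    exact (if_pos ⟨(h0 _).1, (h0 _).1⟩).trans (congrArg _ (Prod.ext (h0 _).2 (h0 _).2))
  · rfl
  · rename_i y
    change pe (db O') (df H) (1, y) = opx (pe (db univ) (df g)) ((), pe (db O) (df f) ((), y))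
    by_cases o : ((), y) ∈ db O
    · rw [show pe (db O) (df f) ((), y) = _ from if_pos o]
      exact (if_pos ⟨(h1 _).1.2 o.1, (h1 _).1.2 o.2⟩).trans ((congrArg _ (Prod.ext ((h1 _).2 o.1)
        ((h1 _).2 o.2))).trans (if_pos ⟨trivial, trivial⟩).symm)
    · rw [show pe (db O) (df f) ((), y) = _ from if_neg o]
      exact if_neg fun k => o ⟨(h1 _).1.1 k.1, (h1 _).1.1 k.2⟩

end Crest.Agent.N218.En.Dm

namespace Crest.Agent.N218.En

open Dm

theorem dim : DIM := by
  intro X F E _ _ _ _ _ _ _ _ _ D c κ R₀ M O ph x h id1 i₂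
  set W₁ : Submodule ℝ F := LinearMap.range (D.p₁ x : F →ₗ[ℝ] F)
  let r₁ : F →L[ℝ] W₁ := (D.p₁ x).rangeRestrict
  have i₁ : ∀ y : W₁, D.p₁ x y = y := by rintro ⟨_, y, rfl⟩; exact id1 y
  have m0 : 0 < D.μ := one_pos.trans h.l.hμ
  have big : ∀ (a b : ℝ), 0 ≤ a → (R₀ ≤ a → (1 + κ) * a ≤ b) → a ≤ max R₀ b := fun a b a0 k =>
    (le_total a R₀).elim (·.trans (le_max_left _ _)) fun j =>
      le_max_of_le_right (by nlinarith [k j, h.l.hκ])
  by_cases z : finrank ℝ W₁ = 0
  · rw [z, eq_comm, finrank_zero_iff]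
    have : Subsingleton W₁ := finrank_zero_iff.1 z
    by_contra k
    rw [not_subsingleton_iff_nontrivial] at k
    obtain ⟨w, hw⟩ := NormedSpace.exists_lt_norm ℝ E (max R₀ 0)
    refine hw.not_ge (big _ _ (norm_nonneg w) fun j => ?_)
    have := h.u.ux x w (by rwa [i₂])
    rwa [i₂, show D.p₁ x _ = (r₁ (D.u (x, w)) : F) from rfl, Subsingleton.elim (r₁ _) 0,
      Submodule.coe_zero, norm_zero] at this
  let s : F → W₁ := fun y => r₁ (D.μ⁻¹ • y)
  have sc : Continuous s := r₁.continuous.comp (continuous_const_smul _)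
  have sn : ∀ y, ‖D.p₁ x y‖ = D.μ * ‖s y‖ := fun y => by
    change _ = D.μ * ‖D.p₁ x (D.μ⁻¹ • y)‖
    rw [_root_.map_smul, norm_smul, Real.norm_of_nonneg (inv_pos.2 m0).le, mul_inv_cancel_left₀ m0.ne']
  have q1 : Continuous fun w : Unit × W₁ => (x, (w.2 : F)) := by fun_prop
  have q2 : Continuous fun w : Unit × E => (x, w.2) := by fun_prop
  have q3 : Continuous fun w : I × W₁ => ((x, (w.1 : ℝ)), (w.2 : F)) := by fun_prop
  refine dimP z (O := {w : Unit × W₁ | (x, (w.2 : F)) ∈ D.Ov}) (f := fun w => D.v (x, w.2))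
    (g := fun w => s (D.u (x, w.2))) (O' := {w : I × W₁ | ((x, (w.1 : ℝ)), (w.2 : F)) ∈ D.O₁})
    (H := fun w => s (D.h₁ ((x, w.1), w.2)))
    ⟨h.u.vo.preimage q1, h.u.vc.comp q1.continuousOn fun _ a => a, fun R =>
      ⟨_, (h.u.vk (max R R₀)).isClosed.preimage q1, fun _ a => a.1, R₀, fun w a b => ?_⟩⟩
    ⟨isOpen_univ, (sc.comp (h.u.uc.comp q2)).continuousOn, fun R =>
      ⟨_, isClosed_univ, subset_rfl, max R₀ (D.μ * R), fun w _ b => ⟨trivial,
        big _ _ (norm_nonneg _) fun j => ?_⟩⟩⟩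
    ⟨h.a.hp.op.preimage q3, sc.comp_continuousOn (h.a.hp.ct.comp q3.continuousOn fun _ a => a),
      fun R => ⟨_, (h.a.hp.cp (max 1 (max (D.μ * R + M) (max R₀ (D.μ * R))))).isClosed.preimage q3,
        fun _ a => a.1, max R₀ (D.μ * R), fun w a b => ?_⟩⟩ (fun y => ?_) fun y => ?_
  · have := h.u.vb _ a
    rw [i₁] at this
    exact ⟨⟨a, le_max_of_le_left b, le_max_of_le_right this⟩, this⟩
  · have := h.u.ux x w.2 (by rwa [i₂])
    rw [i₂, sn] at this
    exact this.trans (mul_le_mul_of_nonneg_left b m0.le)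
  · have n := (sn _).trans_le (mul_le_mul_of_nonneg_left b m0.le)
    have y : ‖w.2‖ ≤ max R₀ (D.μ * R) := big _ _ (norm_nonneg _) fun j => by
      have := h.a.hp.ex _ a (by rwa [i₁])
      rw [i₁] at this
      exact this.trans n
    have k := h.a.hp.bd _ a
    rw [i₁, sub_self, norm_zero, mul_zero, add_zero] at k
    refine ⟨⟨a, le_max_of_le_left (abs_le.2 ⟨by linarith [w.1.2.1], w.1.2.2⟩),
      le_max_of_le_right (le_max_of_le_left ?_), le_max_of_le_right (le_max_of_le_right y)⟩, y⟩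
    linarith [norm_le_norm_add_norm_sub' (D.h₁ ((x, w.1), w.2)) (D.p₁ x (D.h₁ ((x, w.1), w.2)))]
  · obtain ⟨a, b⟩ := h.a.hp.ln x 0 y le_rfl
    refine ⟨a, Subtype.ext ?_⟩
    change D.p₁ x (D.μ⁻¹ • D.h₁ ((x, 0), y)) = y
    rw [b, _root_.map_smul, map_add, (h.l.Cp x y).1, zero_add, _root_.map_smul, i₁, i₁, inv_smul_smul₀ m0.ne']
  · obtain ⟨a, b⟩ := h.a.r₁ x 1 y le_rfl
    exact ⟨a, fun o => congrArg s (b o)⟩

end Crest.Agent.N218.En

end
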