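import Crest.Agent.N218.En.Defs
import Crest.Agent.N218.Pm.Kit1

/-! # Row 218, END wrapper (helper92): the glue -/

set_option autoImplicit false
set_option linter.unusedVariables false
set_option linter.unusedSectionVars false

open Set Topology Module
open scoped InnerProductSpace

noncomputable section

namespace Crest.Agent.N218.En
open Pm Sk

section lin
variable {F E F' E' : Type} [NormedAddCommGroup F] [InnerProductSpace ℝ F] [NormedAddCommGroup E]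
  [InnerProductSpace ℝ E] [NormedAddCommGroup F'] [InnerProductSpace ℝ F'] [NormedAddCommGroup E']
  [InnerProductSpace ℝ E']

theorem P2_ext {v w : P2 F E} (a : v.fst = w.fst) (b : v.snd = w.snd) : v = w :=
  (WithLp.ofLp_injective 2) (Prod.ext a b)

theorem P2_inner (v w : P2 F E) : ⟪v, w⟫_ℝ = ⟪v.fst, w.fst⟫_ℝ + ⟪v.snd, w.snd⟫_ℝ :=
  WithLp.prod_inner_apply v w

theorem op_one : Op (1 : F →L[ℝ] F) := ⟨fun _ => rfl, fun _ _ => rfl⟩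
theorem op_zero : Op (0 : F →L[ℝ] F) := ⟨fun _ => rfl, fun _ _ => by simp⟩
theorem Op.pm {p : F →L[ℝ] F} {q : E →L[ℝ] E} (a : Op p) (b : Op q) : Op (pm p q) :=
  ⟨fun v => P2_ext (a.id _) (b.id _), fun v w => by
    simp only [P2_inner, pm_fst, pm_snd, a.sy, b.sy]⟩

theorem cont_pm {B : Type} [TopologicalSpace B] {A : B → F →L[ℝ] F'} {A' : B → E →L[ℝ] E'}
    (a : Continuous A) (b : Continuous A') : Continuous fun x => pm (A x) (A' x) := by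
  unfold pm
  refine continuous_const.clm_comp (Continuous.clm_comp ?_ continuous_const)
  exact (ContinuousLinearMap.prodMapL ℝ F F' E E').continuous.comp (a.prodMk b)

theorem rk_P2 [FiniteDimensional ℝ F] [FiniteDimensional ℝ E] :
    finrank ℝ (P2 F E) = finrank ℝ F + finrank ℝ E :=
  (WithLp.linearEquiv 2 ℝ (F × E)).finrank_eq.trans finrank_prod

theorem rk_pm [FiniteDimensional ℝ F] [FiniteDimensional ℝ E] (p : F →L[ℝ] F) (q : E →L[ℝ] E) :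
    finrank ℝ (LinearMap.range (pm p q : P2 F E →ₗ[ℝ] P2 F E)) =
      finrank ℝ (LinearMap.range (p : F →ₗ[ℝ] F)) + finrank ℝ (LinearMap.range (q : E →ₗ[ℝ] E)) := by
  rw [← finrank_prod]
  refine LinearEquiv.finrank_eq (LinearEquiv.ofBijective (LinearMap.prod
    (((WithLp.fstₗ 2 ℝ F E).domRestrict _).codRestrict _ ?_)
    (((WithLp.sndₗ 2 ℝ F E).domRestrict _).codRestrict _ ?_)) ⟨fun v w h => ?_, ?_⟩)
  · rintro ⟨_, v, rfl⟩; exact ⟨v.fst, rfl⟩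
  · rintro ⟨_, v, rfl⟩; exact ⟨v.snd, rfl⟩
  · exact Subtype.ext (P2_ext (congrArg (fun x => x.1.1) h) (congrArg (fun x => x.2.1) h))
  · rintro ⟨⟨_, a, rfl⟩, ⟨_, b, rfl⟩⟩
    exact ⟨⟨_, WithLp.toLp 2 (a, b), rfl⟩, rfl⟩

/-- first inclusion -/
def il : E →L[ℝ] P2 E E' :=
  ((WithLp.prodContinuousLinearEquiv 2 ℝ E E').symm : E × E' →L[ℝ] P2 E E').comp
    (ContinuousLinearMap.inl ℝ E E')

theorem Fr.st {B : Type} [TopologicalSpace B] {P : B → F →L[ℝ] F} {ι : B → F' →L[ℝ] F}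
    {ι' : B → F →L[ℝ] F'} (h : Fr P ι ι') :
    Fr (fun b => pm (P b) (pm (1 : E →L[ℝ] E) (0 : E' →L[ℝ] E'))) (fun b => pm (ι b) il)
      (fun b => pm (ι' b) (WithLp.fstL 2 ℝ E E')) :=
  ⟨cont_pm h.ic continuous_const, cont_pm h.ic' continuous_const, fun b z v => by
    simp only [P2_inner, pm_fst, pm_snd, h.ad]
    congr 1
    change ⟪z.snd, v.snd.fst⟫_ℝ + ⟪(0 : E'), v.snd.snd⟫_ℝ = ⟪z.snd, v.snd.fst⟫_ℝ
    simp, fun b z => P2_ext (h.li _ _) rfl, fun b v => P2_ext (h.ri _ _) rfl⟩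
end lin

theorem endt_of (hGF : GF) (hDG : DG) (hTRL : TRL) (hJET : JET) (hSTA : STA) (hSTE : STE)
    (hSGN : SGN) (hTRV : TRV) (hWRA : WRA) (hWRB : WRB) (hDIM : DIM) (hCXE : CXE)
    (hDYN : Rd.DYN) (hRED : Rd.RED) : ENDT := by
  intro T k hk Φ M c B ξ γ gr zz k' rs hD hK
  have k16 : 16 ≤ k := by omega
  have k1 : 1 ≤ k := by omega
  obtain ⟨G, G₁, oG, o₁, d₁, zc, e₁⟩ := hDG Φ M c B ξ γ gr zz k' rs hD hK
  obtain ⟨G', G₂, oG', o₂, q₂, e₂⟩ := hJET _ _ G₁ o₁ d₁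
  obtain ⟨P, a, n₂⟩ := hSGN _ _ G₂.H q₂.ct q₂.sy q₂.inj
  obtain ⟨l, m, ι, ι', f₃⟩ := hTRV _ P n₂.ct n₂.op
  obtain ⟨o₃, q₃, n₃⟩ := hSTA _ _ G₂ o₂ (C.Eu l) 1 op_one
  replace q₃ := q₃ q₂
  replace n₃ := n₃ P a n₂
  set G₃ := G₂.st (1 : C.Eu l →L[ℝ] C.Eu l) with hG₃
  have rk : finrank ℝ (LinearMap.range G₃.p₁.toLinearMap) = m := by
    obtain ⟨ε, p, h⟩ := hWRA _ _ G₃ o₃ _ _ _ ι ι' q₃ n₃ f₃
    obtain ⟨t, t', η, κ, R₁, o⟩ := hDYN _ _ _ _ _ _ _ _ (h ε p le_rfl)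
    obtain ⟨x⟩ : Nonempty S11 := ⟨⟨Φ.e, by simpa using Φ.e_unit⟩⟩
    exact (hDIM _ _ _ _ _ _ _ _ _ _ x o o₃.o₁.id (f₃.li x)).trans (by simp)
  set N := finrank ℝ (P2 (C.Fb (C.Eu M)) (C.Eu l)) with hN
  have oπ : Op (pm (1 : C.Eu m →L[ℝ] C.Eu m) (0 : C.Eu (N + m) →L[ℝ] C.Eu (N + m))) :=
    op_one.pm op_zero
  obtain ⟨o₄, q₄, n₄⟩ := hSTA _ _ G₃ o₃ _ _ oπ
  replace q₄ := q₄ q₃
  replace n₄ := n₄ _ _ n₃
  have f₄ := f₃.st (E := C.Eu m) (E' := C.Eu (N + m))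
  set G₄ := G₃.st (pm (1 : C.Eu m →L[ℝ] C.Eu m) (0 : C.Eu (N + m) →L[ℝ] C.Eu (N + m))) with hG₄
  obtain ⟨n₁, u₁, π₁, a₁, b₁, c₁⟩ := hCXE _ G₄.p₁ o₄.o₁
    ⟨N + m, by rw [rk_P2, ← hN, rk_P2 (F := C.Eu m)]; simp; ring⟩ ⟨m, by
      change finrank ℝ (LinearMap.range (pm G₃.p₁ _).toLinearMap) = _
      rw [rk_pm, rk_pm, rk, ContinuousLinearMap.one_def, ContinuousLinearMap.coe_id,
        LinearMap.range_id, finrank_top, ContinuousLinearMap.coe_zero, LinearMap.range_zero]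
      simp⟩
  obtain ⟨n₂', u₂, π₂, a₂, b₂, c₂⟩ := hCXE (P2 (C.Eu m) (C.Eu m)) 1 op_one
    ⟨m, by rw [rk_P2]; simp⟩ ⟨m, by
      rw [ContinuousLinearMap.one_def, ContinuousLinearMap.coe_id, LinearMap.range_id, finrank_top,
        rk_P2]; simp⟩
  obtain ⟨ε₁, p₁, g₁⟩ := hGF _ _ G oG k k1
  obtain ⟨ε₂, p₂, g₂⟩ := hGF _ _ G' oG' k k1
  obtain ⟨ε₃, p₃, g₃⟩ := hGF _ _ G₂ o₂ k k1
  obtain ⟨ε₄, p₄, g₄⟩ := hGF _ _ G₃ o₃ k k1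
  obtain ⟨ε₅, p₅, g₅⟩ := hWRA _ _ G₄ o₄ _ _ _ _ _ q₄ n₄ f₄
  obtain ⟨ε₆, p₆, g₆⟩ := hWRB _ _ G₄ o₄ _ _ _ _ _ q₄ n₄ f₄ _ T k k16
  refine ⟨min (min (min ε₁ ε₂) (min ε₃ ε₄)) (min (min ε₅ ε₆) (1 / 2)), by positivity,
    fun ε e0 e => ?_⟩
  simp only [le_min_iff] at e
  obtain ⟨⟨⟨l₁, l₂⟩, l₃, l₄⟩, ⟨l₅, l₆⟩, l₇⟩ := e
  obtain ⟨D, c', κ, R₀, M', oD, r₁, r₂, δ₁, d1, hR⟩ := hRED _ _ _ _ _ _ _ _ (g₅ ε e0 l₅) _ T _ _ u₁ u₂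
    (fun _ => π₁) (fun _ => π₂) k ⟨continuous_const, fun _ => a₁, fun _ => b₁⟩
    ⟨continuous_const, fun _ => a₂, fun _ => b₂⟩ (fun _ => c₁)
    (fun x z => (c₂ z).trans (f₄.li x _).symm) k16
  obtain ⟨δ₂, d2, hW⟩ := g₆ ε e0 l₆
  have d0 : 0 < min δ₁ δ₂ / 2 := by positivity
  have dl : min δ₁ δ₂ / 2 < min δ₁ δ₂ := half_lt_self (lt_min d1 d2)
  refine ⟨n₁, n₂', D, c', κ, R₀, M', _, oD, ⟨fun x x' => by rw [r₁], fun x x' => by rw [r₂]⟩, d0,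
    .inl (Pe.symm ((hR _ d0 (dl.trans_le (min_le_left _ _))).2.trans
      ((hW _ d0 (dl.trans_le (min_le_right _ _))).trans ?_)))⟩
  refine (hSTE _ _ _ _ T k (G₃.f ε) _ ε k16 oπ e0 l₇ (g₄ ε e0 l₄).1).trans
    ((hSTE _ _ _ _ T k (G₂.f ε) _ ε k16 op_one e0 l₇ (g₃ ε e0 l₃).1).trans (.inl ?_))
  have s₁ := (g₂ ε e0 l₂).1.pa T k16 (f := G₁.f ε) (g := G₂.f ε) (fun x => (e₂ ε x.1 x.2).1.symm)
    fun x => (e₂ ε x.1 x.2).2.symm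
  have s₂ := (g₁ ε e0 l₁).1.pa T k16 (f := fun x => G.f ε ((x.1, 0), x.2)) (g := G₁.f ε)
    (fun x => rfl) fun x => (e₁ ε x.1 x.2).2.symm
  have s₃ := hTRL _ _ _ T k _ _ k16 zc ((g₁ ε e0 l₁).1.pull (φ := fun x : S11 => (x, 0)) (by fun_prop))
  rw [← s₁, ← s₂, s₃]
  unfold ev
  congr 2
  funext w
  rw [(e₁ ε w.1 _).1]
  simp

end Crest.Agent.N218.En

end
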