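import Crest.Agent.N218.En.Ly

/-!
# Row 218, END wrapper: good families (helper16)
-/

set_option autoImplicit false
set_option linter.unusedVariables false
set_option linter.unusedSectionVars false

open Set Topology Filter
open scoped InnerProductSpace

noncomputable section

namespace Crest.Agent.N218.En
open Pm Sk

namespace Gk
variable {B F : Type} [TopologicalSpace B] [NormedAddCommGroup F] [InnerProductSpace ℝ F]

theorem op_le {p : F →L[ℝ] F} (h : Op p) (v : F) : ‖p v‖ ≤ ‖v‖ := by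
  have a : ‖p v‖ ^ 2 ≤ ‖v‖ * ‖p v‖ := by
    rw [← real_inner_self_eq_norm_sq, h.sy, h.id]; exact real_inner_le_norm _ _
  rcases (norm_nonneg (p v)).eq_or_lt with e | e
  · rw [← e]; exact norm_nonneg _
  · nlinarith

variable [CompleteSpace F] {G : Gb B F} (h : G.Ok)
include h

theorem p1_cp (v : F) : G.p₁ (G.cp v) = G.p₁ v := by
  simp [Gb.cp, (h.oz v).1]

theorem pp_cp (v : F) : ‖G.pp (G.cp v)‖ ≤ G.C := by
  have := h.C0
  have m : 0 < max G.C ‖G.pp v‖ := lt_max_of_lt_left this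
  simp only [Gb.cp, map_add, map_sub, map_smul, h.op.id, sub_self, zero_add]
  rw [norm_smul, Real.norm_of_nonneg (by positivity), div_mul_eq_mul_div, div_le_iff₀ m]
  exact mul_le_mul_of_nonneg_left (le_max_right _ _) this.le

theorem cp_id {v : F} (a : ‖G.pp v‖ ≤ G.C) : G.cp v = v := by
  simp [Gb.cp, max_eq_left a, div_self h.C0.ne']

theorem cp_ct : Continuous G.cp := by
  have m : ∀ v, max G.C ‖G.pp v‖ ≠ 0 := fun v => (lt_max_of_lt_left h.C0).ne'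
  unfold Gb.cp
  fun_prop (disch := exact m)

theorem f_ct (ε : ℝ) : Continuous (G.f ε) := by
  have := h.Rc
  have := h.grc
  unfold Gb.f
  fun_prop

theorem f_D (ε : ℝ) (w : B × F) : (w.1, G.f ε w) ∈ G.D := h.RD (w.1, w.2 - ε • G.gr w)

theorem p1_f {ε : ℝ} (e0 : 0 ≤ ε) (w : B × F) :
    ‖G.p₁ (G.f ε w) - (1 + ε) • G.p₁ w.2‖ ≤ ε * G.C := by
  have e : G.p₁ (G.f ε w) - (1 + ε) • G.p₁ w.2 =
      -(ε • G.p₁ (G.gr w - (G.pp w.2 - G.p₁ w.2))) := by
    simp only [Gb.f, h.R₁, map_sub, map_smul, (h.oz _).1, h.o₁.id]; module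
  rw [e, norm_neg, norm_smul, Real.norm_of_nonneg e0]
  exact mul_le_mul_of_nonneg_left ((op_le h.o₁ _).trans (h.gb w)) e0

theorem pp_f {ε : ℝ} (e0 : 0 ≤ ε) (w : B × F) :
    ‖G.pp (G.f ε w) - (1 - ε) • G.pp w.2‖ ≤ ε * G.C := by
  have e : G.pp (G.f ε w) - (1 - ε) • G.pp w.2 =
      -(ε • G.pp (G.gr w - (G.pp w.2 - G.p₁ w.2))) := by
    simp only [Gb.f, h.Rp, map_sub, map_smul, (h.oz _).2, h.op.id]; module
  rw [e, norm_neg, norm_smul, Real.norm_of_nonneg e0]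
  exact mul_le_mul_of_nonneg_left ((op_le h.op _).trans (h.gb w)) e0

/-- the slab `‖pp v‖ ≤ C` is invariant -/
theorem pp_inv {ε : ℝ} (e0 : 0 ≤ ε) (e1 : ε ≤ 1) (w : B × F) (a : ‖G.pp w.2‖ ≤ G.C) :
    ‖G.pp (G.f ε w)‖ ≤ G.C := by
  have k := norm_le_norm_sub_add (G.pp (G.f ε w)) ((1 - ε) • G.pp w.2)
  rw [norm_smul, Real.norm_of_nonneg (by linarith)] at k
  have := pp_f h e0 w
  nlinarith

theorem lin {ε : ℝ} (e0 : 0 ≤ ε) (w : B × F) :
    ‖G.f ε w - ((1 - ε) • G.pp w.2 + (1 + ε) • G.p₁ w.2)‖ ≤ G.C + ε * G.C + ε * G.C := by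
  have e : G.f ε w - ((1 - ε) • G.pp w.2 + (1 + ε) • G.p₁ w.2) =
      (G.f ε w - G.p₁ (G.f ε w) - G.pp (G.f ε w)) + (G.p₁ (G.f ε w) - (1 + ε) • G.p₁ w.2) +
        (G.pp (G.f ε w) - (1 - ε) • G.pp w.2) := by abel
  rw [e]
  exact norm_add₃_le.trans (add_le_add (add_le_add (h.Db _ (f_D h ε w)) (p1_f h e0 w))
    (pp_f h e0 w))

theorem lin_cp {ε : ℝ} (e0 : 0 ≤ ε) (e1 : ε ≤ 1) (w : B × F) :
    ‖G.f ε (w.1, G.cp w.2) - (1 + ε) • G.p₁ w.2‖ ≤ G.C + ε * G.C + G.C := by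
  have a := p1_f h e0 (w.1, G.cp w.2)
  have b := pp_inv h e0 e1 (w.1, G.cp w.2) (pp_cp h _)
  have c := h.Db _ (f_D h ε (w.1, G.cp w.2))
  rw [p1_cp h] at a
  generalize G.f ε (w.1, G.cp w.2) = y at a b c
  have e : y - (1 + ε) • G.p₁ w.2 =
      (y - G.p₁ y - G.pp y) + (G.p₁ y - (1 + ε) • G.p₁ w.2) + G.pp y := by abel
  rw [e]
  exact norm_add₃_le.trans (add_le_add (add_le_add c a) b)

/-- near the critical point the map is the gradient step -/
theorem f_nr {ε : ℝ} (e0 : 0 ≤ ε) (e1 : ε * G.C ≤ 1) (b : B) {v : F} (a : ‖v‖ ≤ G.ρ) :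
    G.f ε (b, v) = v - ε • G.gr (b, v) := by
  refine (h.nr (b, v - ε • G.gr (b, v)) ?_).2
  have k := h.gl b v 0
  rw [(h.g0 b).2, sub_zero, sub_zero] at k
  have l := norm_sub_le v (ε • G.gr (b, v))
  rw [norm_smul, Real.norm_of_nonneg e0] at l
  have := mul_le_mul_of_nonneg_left k e0
  have := mul_le_mul_of_nonneg_right e1 (norm_nonneg v)
  simp only
  nlinarith

theorem cp_nr {v : F} (a : ‖v‖ ≤ G.ρ) : G.cp v = v :=
  cp_id h ((op_le h.op v).trans (a.trans h.ρC))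

/-- periodic orbits are trivial -/
theorem per {ε : ℝ} (e0 : 0 < ε)
    (L : ∀ w ∈ G.D, G.g (w.1, G.f ε w) ≤ G.g w - ε / 4 * ‖G.gr w‖ ^ 2) {ι : Type} [Fintype ι]
    (σ : ι ≃ ι) (b : B) (z : ι → F) (hz : ∀ i, z (σ i) = G.f ε (b, z i)) (i : ι) : z i = 0 := by
  have d : ∀ i, (b, z i) ∈ G.D := fun i => by
    rw [← σ.apply_symm_apply i, hz]; exact f_D h ε (b, _)
  have := C.cyc_eq σ (a := fun i => G.g (b, z i)) (b := fun i => ε / 4 * ‖G.gr (b, z i)‖ ^ 2)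
    (fun i => by positivity) (fun i => by rw [hz]; exact L _ (d i)) i
  refine h.crit _ (d i) ?_
  simpa [e0.ne'] using this

theorem per_cp {ε : ℝ} (e0 : 0 < ε) (e1 : ε ≤ 1)
    (L : ∀ w ∈ G.D, G.g (w.1, G.f ε w) ≤ G.g w - ε / 4 * ‖G.gr w‖ ^ 2) {ι : Type} [Fintype ι]
    (σ : ι ≃ ι) (b : B) (z : ι → F) (hz : ∀ i, z (σ i) = G.f ε (b, G.cp (z i))) (i : ι) :
    z i = 0 := by
  refine per h e0 L σ b z (fun i => ?_) i
  rw [hz, cp_id h]
  rw [← σ.apply_symm_apply i, hz]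
  exact pp_inv h e0.le e1 (b, _) (pp_cp h _)

theorem lf {ε η : ℝ} (e0 : 0 ≤ ε) (e1 : ε * G.C ≤ η) {φ : B → F → F}
    (a : ∀ b v, ‖v‖ ≤ G.ρ → φ b v = v - ε • G.gr (b, v)) (c : ∀ b v, φ b v = v → v = 0) :
    Yk.Lf φ η := by
  intro b y hy
  obtain rfl := c b y hy
  have t : ∀ᶠ v : F in 𝓝 0, ‖v‖ ≤ G.ρ :=
    (continuous_norm.continuousAt.eventually_lt continuousAt_const (by simpa using h.ρ0)).mono
      fun _ => le_of_lt
  have t1 : Tendsto (fun x : B × F × F => x.2.1) (𝓝 (b, 0, 0)) (𝓝 0) :=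
    Continuous.tendsto' (by fun_prop) _ _ rfl
  have t2 : Tendsto (fun x : B × F × F => x.2.2) (𝓝 (b, 0, 0)) (𝓝 0) :=
    Continuous.tendsto' (by fun_prop) _ _ rfl
  filter_upwards [t1.eventually t, t2.eventually t] with x a1 a2
  have e : φ x.1 x.2.1 - x.2.1 - (φ x.1 x.2.2 - x.2.2) =
      -(ε • (G.gr (x.1, x.2.1) - G.gr (x.1, x.2.2))) := by rw [a _ _ a1, a _ _ a2]; module
  rw [e, norm_neg, norm_smul, Real.norm_of_nonneg e0]
  refine (mul_le_mul_of_nonneg_left (h.gl _ _ _) e0).trans ?_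
  rw [← mul_assoc]
  exact mul_le_mul_of_nonneg_right e1 (norm_nonneg _)

theorem la {k : ℕ} (hk : 1 ≤ k) {s t : ℝ} (hs : s ^ 2 ≠ 1) (ht : t ^ 2 ≠ 1) :
    LA k (s • G.pp + t • G.p₁) := by
  refine LA.of_sym (fun v w => ?_) (fun v a => ?_) hk
  · simp [inner_add_left, inner_add_right, inner_smul_left, inner_smul_right, h.o₁.sy, h.op.sy]
  · simp only [ContinuousLinearMap.add_apply, ContinuousLinearMap.smul_apply, map_add, map_smul,
      (h.oz _).1, (h.oz _).2, h.o₁.id, h.op.id, smul_zero, add_zero, zero_add] at a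
    have a1 := congrArg G.pp a
    have a2 := congrArg G.p₁ a
    simp only [map_add, map_smul, (h.oz _).1, (h.oz _).2, h.o₁.id, h.op.id, smul_zero, add_zero,
      zero_add] at a1 a2
    have b1 : (s ^ 2 - 1) • G.pp v = 0 := by rw [sub_smul, sq, mul_smul, a1, one_smul, sub_self]
    have b2 : (t ^ 2 - 1) • G.p₁ v = 0 := by rw [sub_smul, sq, mul_smul, a2, one_smul, sub_self]
    rw [← a, (smul_eq_zero.1 b1).resolve_left (sub_ne_zero.2 hs),
      (smul_eq_zero.1 b2).resolve_left (sub_ne_zero.2 ht)]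
    simp
end Gk

open Gk in
/-- **GF** -/
theorem gf : GF := by
  intro B F _ _ _ _ _ _ _ G h k hk
  obtain ⟨e, e0, L⟩ := ly B F G h
  obtain ⟨η, n0, hη⟩ := ex_eta (2 ^ k)
  have C0 := h.C0
  refine ⟨min (min e 1) (min (1 / G.C) (η / G.C)), by positivity, fun ε p q => ?_⟩
  simp only [le_min_iff, le_div_iff₀ C0] at q
  obtain ⟨⟨q1, q2⟩, q3, q4⟩ := q
  replace L := L ε p.le q1
  have s1 : (1 + ε) ^ 2 ≠ 1 := by nlinarith
  refine ⟨Gf.of_yk (f_ct h ε) _ (la h hk (s := 1 - ε) (by nlinarith) s1) (lin h p.le) n0.le hη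
    (fun b z hz i => ?_) (lf h p.le q4 (fun b v a => f_nr h p.le q3 b a) fun b v a => ?_),
    Gf.of_yk ((f_ct h ε).comp (by have := cp_ct h; fun_prop)) _
      (la h hk (s := 0) (by norm_num) s1) (fun w => by simpa using lin_cp h p.le q2 w) n0.le hη
      (fun b z hz i => ?_) (lf h p.le q4 (fun b v a => ?_) fun b v a => ?_)⟩
  · have := per h p L (Equiv.addRight 1) b z hz
    rw [this, this]
  · exact per h p L (Equiv.refl Unit) b (fun _ => v) (fun _ => a.symm) ()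
  · have := per_cp h p q2 L (Equiv.addRight 1) b z hz
    rw [this, this]
  · simp only [cp_nr h a, f_nr h p.le q3 b a]
  · exact per_cp h p q2 L (Equiv.refl Unit) b (fun _ => v) (fun _ => a.symm) ()

end Crest.Agent.N218.En

end
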