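import Crest.Agent.N218.En.Defs

/-! Row 218 (helper50): leaf JET, the cut of the gradient data to the `2`-jet. -/

set_option autoImplicit false

open Set Topology
open scoped InnerProductSpace ContDiff

noncomputable section

namespace Crest.Agent.N218.En

section pull
variable {B B' F : Type} [TopologicalSpace B] [TopologicalSpace B'] [NormedAddCommGroup F]
  [InnerProductSpace ℝ F]

/-- change of the base -/
def Gb.pull (G : Gb B F) (φ : B' → B) : Gb B' F where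
  p₁ := G.p₁
  pp := G.pp
  D := {w | (φ w.1, w.2) ∈ G.D}
  Rr := fun w => G.Rr (φ w.1, w.2)
  g := fun w => G.g (φ w.1, w.2)
  gr := fun w => G.gr (φ w.1, w.2)
  H := fun b => G.H (φ b)
  C := G.C
  δ := G.δ
  ρ := G.ρ

theorem Gb.Ok.pull [CompleteSpace F] {G : Gb B F} (h : G.Ok) {φ : B' → B} (hφ : Continuous φ) :
    (G.pull φ).Ok := by
  have c : Continuous fun w : B' × F => (φ w.1, w.2) := by fun_prop
  exact ⟨h.o₁, h.op, h.oz, h.C0, h.δ0, h.ρ0, h.ρC, h.Dc.preimage c, fun w hw => h.Db _ hw,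
    h.Rc.comp c, fun w => h.RD (φ w.1, w.2), fun w => h.R₁ _, fun w => h.Rp _, h.gc.comp c,
    h.grc.comp c, fun b v => h.gd (φ b) v, fun w => h.gb (φ w.1, w.2), fun b => h.gl (φ b),
    fun b => h.mono (φ b), fun w => h.big (φ w.1, w.2), fun w hw => h.crit _ hw,
    fun w hw => h.nr (φ w.1, w.2) hw, fun b => h.g0 _⟩
end pull

namespace Jt

/-- the step -/
def s0 : ℝ → ℝ := Real.smoothTransition
/-- its derivative -/
def s1 : ℝ → ℝ := deriv s0

theorem s0_sm : ContDiff ℝ ∞ s0 := Real.smoothTransition.contDiff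
theorem s1_sm : ContDiff ℝ ∞ s1 := (contDiff_infty_iff_deriv.1 s0_sm).2
theorem s0_d (x : ℝ) : HasDerivAt s0 (s1 x) x := (s0_sm.differentiable (by simp) x).hasDerivAt
theorem s0_z {x : ℝ} (h : x ≤ 0) : s0 x = 0 := Real.smoothTransition.zero_of_nonpos h
theorem s0_o {x : ℝ} (h : 1 ≤ x) : s0 x = 1 := Real.smoothTransition.one_of_one_le h
theorem s0_n (x : ℝ) : 0 ≤ s0 x := Real.smoothTransition.nonneg x
theorem s0_l (x : ℝ) : s0 x ≤ 1 := Real.smoothTransition.le_one x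
theorem s1_z {x : ℝ} (h : x ≤ 0) : s1 x = 0 :=
  IsLocalMin.deriv_eq_zero (Filter.Eventually.of_forall fun y => (s0_z h).le.trans (s0_n y))
theorem s1_o {x : ℝ} (h : 1 ≤ x) : s1 x = 0 :=
  IsLocalMax.deriv_eq_zero (Filter.Eventually.of_forall fun y => (s0_l y).trans (s0_o h).ge)

theorem s1_bd : ∃ K, 0 ≤ K ∧ ∀ x, |s1 x| ≤ K := by
  obtain ⟨K, hK⟩ := (isCompact_Icc (a := (0:ℝ)) (b := 1)).exists_bound_of_continuousOn
    s1_sm.continuous.continuousOn
  have K0 : 0 ≤ K := (norm_nonneg _).trans (hK 0 (by simp))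
  refine ⟨K, K0, fun x => ?_⟩
  rcases le_total x 0 with h | h
  · rwa [s1_z h, abs_zero]
  rcases le_total 1 x with h' | h'
  · rwa [s1_o h', abs_zero]
  · exact hK x ⟨h, h'⟩

variable {B F : Type} [TopologicalSpace B] [NormedAddCommGroup F] [InnerProductSpace ℝ F]

/-- the argument of the cut-off -/
def ar (d : ℝ) (v : F) : ℝ := 2 - 2 / d ^ 2 * ‖v‖ ^ 2
/-- the cut-off -/
def a (d : ℝ) (v : F) : ℝ := s0 (ar d v)
/-- its gradient -/
def W (d : ℝ) (v : F) : F := (-(4 / d ^ 2) * s1 (ar d v)) • v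

theorem ar_sm (d : ℝ) : ContDiff ℝ ∞ (ar d : F → ℝ) :=
  contDiff_const.sub (contDiff_const.mul (contDiff_norm_sq ℝ))
theorem a_sm (d : ℝ) : ContDiff ℝ ∞ (a d : F → ℝ) := s0_sm.comp (ar_sm d)
theorem W_sm (d : ℝ) : ContDiff ℝ ∞ (W d : F → F) :=
  (contDiff_const.mul (s1_sm.comp (ar_sm d))).smul contDiff_id

theorem a_d (d : ℝ) (v : F) : HasFDerivAt (a d) (innerSL ℝ (W d v)) v := by
  have h := (s0_d (ar d v)).comp_hasFDerivAt v
    ((((hasStrictFDerivAt_norm_sq v).hasFDerivAt).const_mul (2 / d ^ 2)).const_sub 2)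
  refine HasFDerivAt.congr_fderiv h ?_
  ext z
  simp [W]
  ring

omit [InnerProductSpace ℝ F] in
theorem ar_out {d : ℝ} (hd : 0 < d) {v : F} (h : d ≤ ‖v‖) : ar d v ≤ 0 := by
  have h1 := pow_le_pow_left₀ hd.le h 2
  have h2 := mul_le_mul_of_nonneg_left h1 (by positivity : 0 ≤ 2 / d ^ 2)
  rw [div_mul_cancel₀ _ (by positivity)] at h2
  unfold ar; linarith

omit [InnerProductSpace ℝ F] in
theorem ar_in {d : ℝ} (hd : 0 < d) {v : F} (h : ‖v‖ ≤ d / 2) : 1 ≤ ar d v := by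
  have h1 := pow_le_pow_left₀ (norm_nonneg _) h 2
  have h2 := mul_le_mul_of_nonneg_left h1 (by positivity : 0 ≤ 2 / d ^ 2)
  have h3 : 2 / d ^ 2 * (d / 2) ^ 2 = 1 / 2 := by field_simp
  unfold ar; linarith

omit [InnerProductSpace ℝ F] in
theorem a_out {d : ℝ} (hd : 0 < d) {v : F} (h : d ≤ ‖v‖) : a d v = 0 := s0_z (ar_out hd h)
theorem W_out {d : ℝ} (hd : 0 < d) {v : F} (h : d ≤ ‖v‖) : W d v = 0 := by
  simp [W, s1_z (ar_out hd h)]

theorem lip_cs [FiniteDimensional ℝ F] {X : Type} [NormedAddCommGroup X] [NormedSpace ℝ X]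
    {f : F → X} {d : ℝ} (hs : ContDiff ℝ ∞ f) (h : ∀ v, d ≤ ‖v‖ → f v = 0) :
    ∃ L, 0 ≤ L ∧ ∀ v v', ‖f v - f v'‖ ≤ L * ‖v - v'‖ := by
  obtain ⟨C, hC⟩ := ContDiff.lipschitzWith_of_hasCompactSupport
    (HasCompactSupport.intro (isCompact_closedBall (0 : F) d) fun y hy =>
      h y (not_le.1 (mem_closedBall_zero_iff.not.1 hy)).le) hs (by simp)
  exact ⟨C, C.2, fun v v' => by simpa [dist_eq_norm] using hC.dist_le_mul v v'⟩

omit [InnerProductSpace ℝ F] in
theorem lip_mul {X Y Z : Type} [NormedAddCommGroup X] [NormedAddCommGroup Y]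
    [NormedAddCommGroup Z] (μ : X → Y → Z)
    (hμ : ∀ x x' y y', ‖μ x y - μ x' y'‖ ≤ ‖x - x'‖ * ‖y‖ + ‖x'‖ * ‖y - y'‖)
    {f : F → X} {g : F → Y} {d A L A' L' : ℝ} (hA : 0 ≤ A) (hL : 0 ≤ L) (hA' : 0 ≤ A')
    (hL' : 0 ≤ L') (f0 : ∀ v, d ≤ ‖v‖ → f v = 0) (fb : ∀ v, ‖v‖ ≤ d → ‖f v‖ ≤ A)
    (fl : ∀ v v', ‖f v - f v'‖ ≤ L * ‖v - v'‖) (gb : ∀ v, ‖v‖ ≤ d → ‖g v‖ ≤ A')
    (gl : ∀ v v', ‖v‖ ≤ d → ‖v'‖ ≤ d → ‖g v - g v'‖ ≤ L' * ‖v - v'‖) (v v' : F) :
    ‖μ (f v) (g v) - μ (f v') (g v')‖ ≤ (L * A' + A * L') * ‖v - v'‖ := by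
  have key : ∀ v v', ‖v‖ ≤ d ∨ d ≤ ‖v'‖ →
      ‖μ (f v) (g v) - μ (f v') (g v')‖ ≤ (L * A' + A * L') * ‖v - v'‖ := fun v v' h => by
    have n := norm_nonneg (v - v')
    refine (hμ _ _ _ _).trans ?_
    rcases le_total ‖v‖ d with c | c
    · have h1 : ‖f v - f v'‖ * ‖g v‖ ≤ L * ‖v - v'‖ * A' :=
        mul_le_mul (fl v v') (gb v c) (norm_nonneg _) (by positivity)
      rcases le_total ‖v'‖ d with c' | c'
      · have h2 : ‖f v'‖ * ‖g v - g v'‖ ≤ A * (L' * ‖v - v'‖) :=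
          mul_le_mul (fb v' c') (gl v v' c c') (norm_nonneg _) hA
        linarith
      · have h2 : 0 ≤ A * L' * ‖v - v'‖ := by positivity
        rw [f0 v' c'] at h1 ⊢
        rw [norm_zero]; linarith
    · rcases h with h | h
      · rcases le_total ‖v'‖ d with c' | c'
        · have h1 : ‖f v - f v'‖ * ‖g v‖ ≤ L * ‖v - v'‖ * A' :=
            mul_le_mul (fl v v') (gb v h) (norm_nonneg _) (by positivity)
          have h2 : ‖f v'‖ * ‖g v - g v'‖ ≤ A * (L' * ‖v - v'‖) :=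
            mul_le_mul (fb v' c') (gl v v' h c') (norm_nonneg _) hA
          linarith
        · rw [f0 v c, f0 v' c']; simp only [sub_self, norm_zero, zero_mul, add_zero]; positivity
      · rw [f0 v c, f0 v' h]; simp only [sub_self, norm_zero, zero_mul, add_zero]; positivity
  rcases le_total ‖v‖ d with c | c
  · exact key v v' (.inl c)
  · rw [norm_sub_rev, norm_sub_rev v]; exact key v' v (.inr c)

theorem smul_sub (x x' : ℝ) (y y' : F) :
    ‖x • y - x' • y'‖ ≤ ‖x - x'‖ * ‖y‖ + ‖x'‖ * ‖y - y'‖ := by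
  rw [← norm_smul, ← norm_smul]
  exact (le_of_eq (congrArg _ (by module))).trans (norm_add_le _ _)

theorem smul_sub' (y y' : F) (x x' : ℝ) :
    ‖x • y - x' • y'‖ ≤ ‖y - y'‖ * ‖x‖ + ‖y'‖ * ‖x - x'‖ := by
  rw [mul_comm, mul_comm ‖y'‖, ← norm_smul, ← norm_smul]
  exact (le_of_eq (congrArg _ (by module))).trans (norm_add_le _ _)

theorem grad_iff [CompleteSpace F] {f : F → ℝ} {g x : F} :
    HasGradientAt f g x ↔ HasFDerivAt f (innerSL ℝ g) x := by
  rw [hasGradientAt_iff_hasFDerivAt]; rfl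

variable (G : Gb B F)

/-- the error of the function -/
def q (w : B × F) : ℝ := 1 / 2 * ⟪G.H w.1 w.2, w.2⟫_ℝ - G.g w
/-- the error of the gradient -/
def e (w : B × F) : F := G.H w.1 w.2 - G.gr w
/-- the correction of the gradient -/
def cr (d : ℝ) (w : B × F) : F := a d w.2 • e G w + q G w • W d w.2

/-- the path to the `2`-jet -/
def jt (d A : ℝ) : Gb (B × unitInterval) F where
  p₁ := G.p₁
  pp := G.pp
  D := {w | (w.1.1, w.2) ∈ G.D}
  Rr := fun w => G.Rr (w.1.1, w.2)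
  g := fun w => G.g (w.1.1, w.2) + w.1.2 * (a d w.2 * q G (w.1.1, w.2))
  gr := fun w => G.gr (w.1.1, w.2) + (w.1.2 : ℝ) • cr G d (w.1.1, w.2)
  H := fun b => G.H b.1
  C := G.C + 2 * A
  δ := G.δ
  ρ := d / 2

variable {G} [CompleteSpace F]

theorem q_d (h : G.Ok) (hs : G.Hs) (b : B) (v : F) :
    HasFDerivAt (fun v => q G (b, v)) (innerSL ℝ (e G (b, v))) v := by
  have h1 := (((G.H b).hasFDerivAt (x := v)).inner ℝ (hasFDerivAt_id v)).const_mul (1 / 2 : ℝ)
  refine HasFDerivAt.congr_fderiv (h1.sub (grad_iff.1 (h.gd b v))) ?_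
  ext z
  have := hs.sy b z v
  simp [e, this, real_inner_comm (G.H b v) z]
  ring

theorem est [CompactSpace B] [FiniteDimensional ℝ F] (h : G.Ok) (hf : G.Df) :
    ∃ d A, 0 < d ∧ d ≤ G.ρ ∧ 0 ≤ A ∧ (∀ w, ‖cr G d w‖ ≤ A) ∧ (∀ w, |a d w.2 * q G w| ≤ A) ∧
      (∀ b v v', ‖cr G d (b, v) - cr G d (b, v')‖ ≤ A * ‖v - v'‖) ∧
      ∀ (w : B × F) (t : ℝ), 0 ≤ t → t ≤ 1 → ‖w.2‖ ≤ d → G.gr w + t • cr G d w = 0 → w.2 = 0 := by
  obtain ⟨K, K0, hK⟩ := s1_bd
  have cH : Continuous fun w : B × F => G.H w.1 w.2 :=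
    (hf.ct.comp continuous_fst).clm_apply continuous_snd
  obtain ⟨m, m0, hm⟩ := ((isCompact_univ (X := B)).prod
    (isCompact_sphere (0 : F) 1)).exists_forall_le' (a := 0) cH.norm.continuousOn fun w hw =>
      norm_pos_iff.2 fun c => by simpa [hf.inj _ _ c] using hw.2
  have hm' : ∀ b v, m * ‖v‖ ≤ ‖G.H b v‖ := fun b v => by
    rcases eq_or_ne v 0 with rfl | hv
    · simp
    · have n := norm_pos_iff.2 hv
      have h1 := hm (b, ‖v‖⁻¹ • v) ⟨trivial, by simp [norm_smul, n.ne']⟩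
      simp only [map_smul, norm_smul, norm_inv, norm_norm] at h1
      rwa [← div_eq_inv_mul, le_div_iff₀ n] at h1
  obtain ⟨M, hM⟩ := (isCompact_univ (X := B)).exists_bound_of_continuousOn hf.ct.continuousOn
  set θ : ℝ := m / (2 * (1 + 4 * K)) with hθ
  have θ0 : 0 < θ := by positivity
  have θ1 : θ * (1 + 4 * K) = m / 2 := by rw [hθ]; field_simp
  obtain ⟨δ', δ0, hδ⟩ := hf.df θ θ0
  set d := min δ' G.ρ
  have d0 : 0 < d := lt_min δ0 h.ρ0
  have he : ∀ w : B × F, ‖w.2‖ ≤ d → ‖e G w‖ ≤ θ * ‖w.2‖ := fun w hw => by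
    rw [e, norm_sub_rev]; exact hδ w.1 w.2 (hw.trans (min_le_left _ _))
  have ql : ∀ b (r : ℝ) v v', r ≤ d → ‖v‖ ≤ r → ‖v'‖ ≤ r →
      ‖q G (b, v) - q G (b, v')‖ ≤ θ * r * ‖v - v'‖ := fun b r v v' hr hv hv' =>
    (convex_closedBall (0 : F) r).norm_image_sub_le_of_norm_hasFDerivWithin_le
      (f := fun v => q G (b, v)) (fun z _ => (q_d h hf.toHs b z).hasFDerivWithinAt)
      (fun z hz => by
        have := mem_closedBall_zero_iff.1 hz
        rw [innerSL_apply_norm]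
        exact (he (b, z) (this.trans hr)).trans (mul_le_mul_of_nonneg_left this θ0.le))
      (mem_closedBall_zero_iff.2 hv') (mem_closedBall_zero_iff.2 hv)
  have hq : ∀ w : B × F, ‖w.2‖ ≤ d → ‖q G w‖ ≤ θ * ‖w.2‖ * ‖w.2‖ := fun w hw => by
    have := ql w.1 _ w.2 0 hw le_rfl (by simp)
    simpa [q, (h.g0 w.1).1] using this
  have hW : ∀ v : F, ‖W d v‖ ≤ 4 / d ^ 2 * K * ‖v‖ := fun v => by
    rw [W, norm_smul, norm_mul, norm_neg, Real.norm_of_nonneg (by positivity)]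
    gcongr; exact hK _
  have ha : ∀ v : F, ‖a d v‖ ≤ 1 := fun v => by
    rw [a, Real.norm_of_nonneg (s0_n _)]; exact s0_l _
  have hqW : ∀ w : B × F, ‖w.2‖ ≤ d → ‖q G w • W d w.2‖ ≤ θ * (4 * K) * ‖w.2‖ := fun w hw => by
    rw [norm_smul]
    calc _ ≤ θ * d * d * (4 / d ^ 2 * K * ‖w.2‖) :=
          mul_le_mul ((hq w hw).trans (by gcongr)) (hW _) (norm_nonneg _) (by positivity)
      _ = _ := by field_simp
  obtain ⟨La, La0, hLa⟩ := lip_cs (a_sm d) fun v : F => a_out d0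
  obtain ⟨LW, LW0, hLW⟩ := lip_cs (W_sm d) fun v : F => W_out d0
  have C0 := h.C0
  set L := (La * (θ * d) + 1 * (max M 0 + G.C)) + (LW * (θ * d * d) + 4 / d ^ 2 * K * d * (θ * d))
  have L0 : 0 ≤ L := by positivity
  have p1 : 0 ≤ m / 2 * d := by positivity
  have p2 : 0 ≤ θ * d * d := by positivity
  refine ⟨d, L + m / 2 * d + θ * d * d, d0, min_le_right _ _, by positivity, fun w => ?_,
    fun w => ?_, fun b v v' => ?_, fun w t t0 t1 hw hz => ?_⟩
  · rcases le_total ‖w.2‖ d with c | c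
    · have h1 : ‖a d w.2 • e G w‖ ≤ 1 * (θ * ‖w.2‖) := by
        rw [norm_smul]; exact mul_le_mul (ha _) (he w c) (norm_nonneg _) zero_le_one
      have h2 := norm_add_le (a d w.2 • e G w) (q G w • W d w.2)
      have h3 : m / 2 * ‖w.2‖ ≤ m / 2 * d := by gcongr
      have h4 : θ * (1 + 4 * K) * ‖w.2‖ = m / 2 * ‖w.2‖ := by rw [θ1]
      unfold cr; linarith [hqW w c]
    · rw [cr, a_out d0 c, W_out d0 c, zero_smul, smul_zero, add_zero, norm_zero]; positivity
  · rcases le_total ‖w.2‖ d with c | c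
    · have h1 : ‖a d w.2‖ * ‖q G w‖ ≤ 1 * (θ * d * d) :=
        mul_le_mul (ha _) ((hq w c).trans (by gcongr)) (norm_nonneg _) zero_le_one
      rw [← norm_mul, Real.norm_eq_abs] at h1
      linarith
    · rw [a_out d0 c, zero_mul, abs_zero]; positivity
  · have h1 := lip_mul (fun (x : ℝ) (y : F) => x • y) smul_sub (g := fun v => e G (b, v))
      (A' := θ * d) (L' := max M 0 + G.C) zero_le_one La0
      (by positivity) (by positivity) (fun v => a_out d0) (fun v _ => ha v) hLa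
      (fun v c => (he (b, v) c).trans (by gcongr)) (fun v v' _ _ => by
        have k1 := (G.H b).le_of_opNorm_le ((hM b trivial).trans (le_max_left M 0)) (v - v')
        have k2 := norm_sub_le (G.H b (v - v')) (G.gr (b, v) - G.gr (b, v'))
        have k3 : e G (b, v) - e G (b, v') = G.H b (v - v') - (G.gr (b, v) - G.gr (b, v')) := by
          simp only [e, map_sub]; abel
        rw [k3]; linarith [h.gl b v v']) v v'
    have h2 := lip_mul (fun (y : F) (x : ℝ) => x • y) smul_sub' (g := fun v => q G (b, v))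
      (A := 4 / d ^ 2 * K * d) (A' := θ * d * d) (L' := θ * d) (by positivity) LW0
      (by positivity) (by positivity) (fun v => W_out d0) (fun v c => (hW v).trans (by gcongr)) hLW
      (fun v c => (hq (b, v) c).trans (by gcongr)) (fun v v' c c' => ql b d v v' le_rfl c c') v v'
    have h3 : 0 ≤ (m / 2 * d + θ * d * d) * ‖v - v'‖ := by positivity
    simp only [cr]
    rw [add_sub_add_comm]
    refine (norm_add_le _ _).trans ?_
    simp only [L]; linarith
  · have h1 : G.H w.1 w.2 = (1 - t * a d w.2) • e G w - t • q G w • W d w.2 := by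
      have : G.gr w = -(t • cr G d w) := eq_neg_of_add_eq_zero_left hz
      have k : G.H w.1 w.2 = e G w + G.gr w := by simp [e]
      rw [k, this, cr]; module
    have a0 : 0 ≤ a d w.2 := s0_n _
    have a1 : a d w.2 ≤ 1 := s0_l _
    have h2 : ‖(1 - t * a d w.2) • e G w‖ ≤ 1 * (θ * ‖w.2‖) := by
      rw [norm_smul, Real.norm_of_nonneg (by nlinarith)]
      exact mul_le_mul (by nlinarith) (he w hw) (norm_nonneg _) zero_le_one
    have h3 : ‖t • q G w • W d w.2‖ ≤ 1 * (θ * (4 * K) * ‖w.2‖) := by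
      rw [norm_smul t, Real.norm_of_nonneg t0]
      exact mul_le_mul t1 (hqW w hw) (norm_nonneg _) zero_le_one
    have h4 := hm' w.1 w.2
    rw [h1] at h4
    have h5 := norm_sub_le ((1 - t * a d w.2) • e G w) (t • q G w • W d w.2)
    have h6 : θ * (1 + 4 * K) * ‖w.2‖ = m / 2 * ‖w.2‖ := by rw [θ1]
    have h7 : m * ‖w.2‖ ≤ m * 0 := by linarith
    exact norm_le_zero_iff.1 (le_of_mul_le_mul_left h7 m0)

end Jt

open Jt in
theorem jet : JET := fun B F _ _ _ _ _ _ _ G h hf => by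
  obtain ⟨d, A, d0, dρ, A0, cb, qb, cl, cz⟩ := est h hf
  have c : Continuous fun w : (B × unitInterval) × F => (w.1.1, w.2) := by fun_prop
  have ct : Continuous fun w : (B × unitInterval) × F => (w.1.2 : ℝ) := by fun_prop
  have cH : Continuous fun w : B × F => G.H w.1 w.2 :=
    (hf.ct.comp continuous_fst).clm_apply continuous_snd
  have cq : Continuous (q G) := (continuous_const.mul (cH.inner continuous_snd)).sub h.gc
  have ca : Continuous fun w : B × F => a d w.2 := (a_sm d).continuous.comp continuous_snd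
  have cc : Continuous (cr G d) :=
    (ca.smul (cH.sub h.grc)).add (cq.smul ((W_sm d).continuous.comp continuous_snd))
  have sm : ∀ (t : unitInterval) (x : F), ‖(t : ℝ) • x‖ ≤ ‖x‖ := fun t x => by
    rw [norm_smul, Real.norm_of_nonneg t.2.1]; exact mul_le_of_le_one_left (norm_nonneg _) t.2.2
  have sm' : ∀ (t : unitInterval) (x : ℝ), |(t : ℝ) * x| ≤ |x| := fun t x => by
    rw [abs_mul, abs_of_nonneg t.2.1]; exact mul_le_of_le_one_left (abs_nonneg _) t.2.2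
  have ok : (jt G d A).Ok := by
    refine ⟨h.o₁, h.op, h.oz, ?_, h.δ0, half_pos d0, ?_, h.Dc.preimage c,
      fun w hw => (h.Db _ hw).trans (le_add_of_nonneg_right (by positivity)),
      h.Rc.comp c, fun w => h.RD (w.1.1, w.2), fun w => h.R₁ _, fun w => h.Rp _,
      (h.gc.comp c).add (ct.mul ((ca.mul cq).comp c)), (h.grc.comp c).add (ct.smul (cc.comp c)),
      fun b v => ?_, fun w => ?_, fun b v v' => ?_, fun b v v' hv hd => ?_, fun w => ?_,
      fun w hw hz => ?_, fun w hw => h.nr (w.1.1, w.2) ?_, fun b => ?_⟩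
    · show 0 < G.C + 2 * A
      linarith [h.C0]
    · show d / 2 ≤ G.C + 2 * A
      linarith [h.ρC]
    · refine grad_iff.2 (HasFDerivAt.congr_fderiv ((grad_iff.1 (h.gd b.1 v)).add
        (((a_d d v).mul (q_d h hf.toHs b.1 v)).const_mul (b.2 : ℝ))) ?_)
      ext z
      simp [jt, cr]
    · have h1 := h.gb (w.1.1, w.2)
      have h2 := (sm w.1.2 _).trans (cb (w.1.1, w.2))
      show ‖G.gr (w.1.1, w.2) + (w.1.2 : ℝ) • cr G d (w.1.1, w.2) - (G.pp w.2 - G.p₁ w.2)‖ ≤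
        G.C + 2 * A
      rw [add_sub_right_comm]
      refine (norm_add_le _ _).trans ?_
      linarith
    · have h1 := h.gl b.1 v v'
      have h2 := (sm b.2 _).trans (cl b.1 v v')
      show ‖G.gr (b.1, v) + (b.2 : ℝ) • cr G d (b.1, v) -
        (G.gr (b.1, v') + (b.2 : ℝ) • cr G d (b.1, v'))‖ ≤ (G.C + 2 * A) * ‖v - v'‖
      rw [add_sub_add_comm, ← _root_.smul_sub]
      refine (norm_add_le _ _).trans ?_
      nlinarith [mul_nonneg A0 (norm_nonneg (v - v'))]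
    · show G.g (b.1, G.Rr (b.1, v')) + b.2 * (a d (G.Rr (b.1, v')) * q G (b.1, G.Rr (b.1, v'))) ≤
        G.g (b.1, v') + b.2 * (a d v' * q G (b.1, v'))
      rcases le_total ‖v'‖ (2 * G.ρ) with k | k
      · rw [(h.nr (b.1, v') k).2]
      · have h1 := hf.mar b.1 v v' hv hd
        have h2 := norm_sub_norm_le v' (G.Rr (b.1, v'))
        rw [norm_sub_rev] at h1
        rw [a_out d0 (by linarith), a_out d0 (v := v') (by linarith [h.ρ0])]
        simpa using h.mono b.1 v v' hv hd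
    · have h1 := h.big (w.1.1, w.2)
      have h2 := abs_le.1 ((sm' w.1.2 _).trans (qb (w.1.1, w.2)))
      have h3 := abs_le.1 ((sm' w.1.2 _).trans (qb (w.1.1, G.Rr (w.1.1, w.2))))
      show G.g (w.1.1, G.Rr (w.1.1, w.2)) + w.1.2 * (a d (G.Rr (w.1.1, w.2)) *
        q G (w.1.1, G.Rr (w.1.1, w.2))) ≤
        G.g (w.1.1, w.2) + w.1.2 * (a d w.2 * q G (w.1.1, w.2)) + (G.C + 2 * A)
      simp only at h1 h2 h3
      linarith [h2.1, h3.2]
    · rcases le_total ‖w.2‖ d with k | k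
      · exact cz (w.1.1, w.2) _ w.1.2.2.1 w.1.2.2.2 k hz
      · refine h.crit (w.1.1, w.2) hw ?_
        simpa [jt, cr, a_out d0 k, W_out d0 k] using hz
    · have : ‖w.2‖ ≤ 2 * (d / 2) := hw
      show ‖w.2‖ ≤ 2 * G.ρ
      linarith [h.ρ0]
    · simp [jt, cr, q, e, W, h.g0 b.1]
  refine ⟨jt G d A, (jt G d A).pull fun b => (b, 1), ok, ok.pull (by fun_prop),
    ⟨⟨hf.ct, hf.sy, hf.inj, fun w hw => hf.id w hw⟩, fun b v hv => ?_⟩,
    fun ε b v => ⟨by simp [Gb.f, jt], rfl⟩⟩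
  have h1 : a d v = 1 := s0_o (ar_in d0 hv)
  have h2 : W d v = 0 := by simp [W, s1_o (ar_in d0 hv)]
  simp [Gb.pull, jt, cr, q, e, h1, h2]

end Crest.Agent.N218.En

end
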