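import Crest.Agent.N218.En.Defs

/-!
# Row 218, END wrapper: the Lyapunov inequality (helper16)
-/

set_option autoImplicit false
set_option linter.unusedVariables false

open Set Topology
open scoped InnerProductSpace

noncomputable section

namespace Crest.Agent.N218.En
open Pm Sk

/-- **LY** -/
theorem ly : LY := by
  intro B F _ _ _ _ _ _ _ G h
  have C0 := h.C0
  have d0 := h.δ0
  refine ⟨min (1 / G.C) (G.δ ^ 2 / (4 * G.C)), by positivity, fun ε e0 e1 ⟨b, v⟩ hw => ?_⟩
  obtain ⟨e1, e2⟩ := le_min_iff.1 e1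
  rw [le_div_iff₀ C0] at e1
  rw [le_div_iff₀ (by positivity)] at e2
  have n : ‖v - ε • G.gr (b, v) - v‖ = ε * ‖G.gr (b, v)‖ := by
    rw [sub_sub_cancel_left, norm_neg, norm_smul, Real.norm_of_nonneg e0]
  change G.g (b, G.Rr (b, v - ε • G.gr (b, v))) ≤ G.g (b, v) - ε / 4 * ‖G.gr (b, v)‖ ^ 2
  rcases e0.eq_or_lt with rfl | e0
  · simpa using h.mono b v v hw (by simpa using d0.le)
  have d := C.desc_grad (h.gd b) (h.gl b) e0 e1 v
  have k : 1 / (2 * ε) * (ε * ‖G.gr (b, v)‖) ^ 2 = ε / 2 * ‖G.gr (b, v)‖ ^ 2 := by field_simp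
  rw [n, k] at d
  have p : 0 ≤ ε * ‖G.gr (b, v)‖ ^ 2 := by positivity
  rcases le_total (ε * ‖G.gr (b, v)‖) G.δ with a | a
  · have := h.mono b v _ hw (n.trans_le a)
    linarith
  · have t := h.big (b, v - ε • G.gr (b, v))
    have u : ε * (4 * G.C) ≤ ε * (ε * ‖G.gr (b, v)‖ ^ 2) := by
      have := pow_le_pow_left₀ d0.le a 2
      nlinarith
    have := le_of_mul_le_mul_left u e0
    simp only at t
    linarith

end Crest.Agent.N218.En

end
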