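import Crest.Agent.N218.En.Defs
import Crest.Agent.N218.C.Toe

/-! Row 218, END wrapper (helper73): the negative spectral projection is continuous. -/

set_option autoImplicit false

open Set Topology
open scoped InnerProductSpace

noncomputable section

namespace Crest.Agent.N218.En

namespace Sg
variable {F : Type} [NormedAddCommGroup F] [InnerProductSpace ℝ F] [FiniteDimensional ℝ F]
  {H : F →L[ℝ] F}

/-- the closed conditions -/
def Cd (H P : F →L[ℝ] F) : Prop := (∀ v, P (P v) = P v) ∧ (∀ v w, ⟪P v, w⟫_ℝ = ⟪v, P w⟫_ℝ) ∧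
  (∀ v, H (P v) = P (H v)) ∧ (∀ v, ⟪H (P v), P v⟫_ℝ ≤ 0) ∧ ∀ v, 0 ≤ ⟪H (v - P v), v - P v⟫_ℝ

theorem basis (hs : ∀ v w, ⟪H v, w⟫_ℝ = ⟪v, H w⟫_ℝ) :
    ∃ (b : OrthonormalBasis (Fin (Module.finrank ℝ F)) ℝ F) (l : _ → ℝ),
      ∀ i, H (b i) = l i • b i :=
  have s : (H : F →ₗ[ℝ] F).IsSymmetric := hs
  ⟨s.eigenvectorBasis rfl, s.eigenvalues rfl, fun i => s.apply_eigenvectorBasis rfl i⟩

theorem uniq (hs : ∀ v w, ⟪H v, w⟫_ℝ = ⟪v, H w⟫_ℝ) (hi : ∀ v, H v = 0 → v = 0)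
    {P P' : F →L[ℝ] F} (h : Cd H P) (h' : Cd H P') : P = P' := by
  obtain ⟨b, l, hb⟩ := basis hs
  have k : ∀ {P}, Cd H P → ∀ i, P (b i) = if l i < 0 then b i else 0 := fun {P} h i => by
    have e : H (P (b i)) = l i • P (b i) := by rw [h.2.2.1, hb, map_smul]
    split_ifs with q
    · have := h.2.2.2.2 (b i)
      rw [map_sub, e, hb, ← smul_sub, real_inner_smul_left] at this
      exact (sub_eq_zero.1 (inner_self_eq_zero.1 (le_antisymm
        (by nlinarith [real_inner_self_nonneg (x := b i - P (b i))]) real_inner_self_nonneg))).symm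
    · have := h.2.2.2.1 (b i)
      rw [e, real_inner_smul_left] at this
      have p : 0 < l i := lt_of_le_of_ne (not_lt.1 q) fun z =>
        b.orthonormal.ne_zero i (hi _ (by rw [hb, ← z, zero_smul]))
      exact inner_self_eq_zero.1 (le_antisymm
        (by nlinarith [real_inner_self_nonneg (x := P (b i))]) real_inner_self_nonneg)
  refine ContinuousLinearMap.coe_injective (b.toBasis.ext fun i => ?_)
  exact (k h i).trans (k h' i).symm

theorem ex (hs : ∀ v w, ⟪H v, w⟫_ℝ = ⟪v, H w⟫_ℝ) {a : ℝ} (ha : ∀ v, a * ‖v‖ ≤ ‖H v‖) :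
    ∃ P, Cd H P ∧ ∀ v, ⟪H (P v), P v⟫_ℝ ≤ -(a * ‖P v‖ ^ 2) := by
  obtain ⟨b, l, hb⟩ := basis hs
  let P : F →L[ℝ] F := ∑ i with l i < 0, (innerSL ℝ (b i)).smulRight (b i)
  have hP : ∀ j v, ⟪b j, P v⟫_ℝ = if l j < 0 then ⟪b j, v⟫_ℝ else 0 := fun j v => by
    simp [P, inner_sum, inner_smul_right, orthonormal_iff_ite.1 b.orthonormal]
  have hH : ∀ j v, ⟪b j, H v⟫_ℝ = l j * ⟪b j, v⟫_ℝ := fun j v => by
    rw [← hs, hb, real_inner_smul_left]
  have ip : ∀ u v, ⟪u, v⟫_ℝ = ∑ j, ⟪b j, u⟫_ℝ * ⟪b j, v⟫_ℝ := fun u v => by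
    rw [← b.sum_inner_mul_inner]
    exact Finset.sum_congr rfl fun j _ => by rw [real_inner_comm]
  have ext : ∀ {u v}, (∀ j, ⟪b j, u⟫_ℝ = ⟪b j, v⟫_ℝ) → u = v := fun {u v} h =>
    ext_inner_right ℝ fun w => by rw [ip, ip v]; simp only [h]
  have al : ∀ j, a ≤ |l j| := fun j => by
    simpa [hb, norm_smul, b.orthonormal.1 j] using ha (b j)
  have ng : ∀ c, (∀ j, l j < 0 → l j ≤ -c) → ∀ v, ⟪H (P v), P v⟫_ℝ ≤ -(c * ‖P v‖ ^ 2) :=
    fun c hc v => by
      rw [← real_inner_self_eq_norm_sq, ip, ip (P v), Finset.mul_sum, ← Finset.sum_neg_distrib]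
      refine Finset.sum_le_sum fun j _ => ?_
      rw [hH, hP]
      split_ifs with q
      · nlinarith [hc j q, mul_self_nonneg ⟪b j, v⟫_ℝ]
      · simp
  refine ⟨P, ⟨fun v => ext fun j => ?_, fun v w => ?_, fun v => ext fun j => ?_, fun v => ?_,
    fun v => ?_⟩, ng a fun j q => by linarith [al j, abs_of_neg q]⟩
  · rw [hP, hP]; split_ifs <;> rfl
  · rw [ip, ip v]
    refine Finset.sum_congr rfl fun j _ => ?_
    rw [hP, hP]; split_ifs <;> simp
  · rw [hH, hP, hP, hH]; split_ifs <;> simp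
  · simpa using ng 0 (fun j q => by linarith) v
  · rw [ip]
    refine Finset.sum_nonneg fun j _ => ?_
    rw [hH, inner_sub_right, hP]
    split_ifs with q
    · simp
    · nlinarith [mul_self_nonneg (⟪b j, v⟫_ℝ - 0)]

omit [FiniteDimensional ℝ F] in
theorem Cd.norm {P : F →L[ℝ] F} (h : Cd H P) : ‖P‖ ≤ 1 :=
  P.opNorm_le_bound zero_le_one fun v => by
    have := real_inner_le_norm v (P v)
    rw [← h.1 v, ← h.2.1, real_inner_self_eq_norm_sq, h.1] at this
    nlinarith [norm_nonneg v, norm_nonneg (P v)]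

end Sg

open Sg

theorem sgn : SGN := by
  intro B F _ _ _ _ _ _ H hc hs hi
  obtain ⟨a, a0, ha⟩ : ∃ a > 0, ∀ b v, a * ‖v‖ ≤ ‖H b v‖ := by
    have k : IsCompact ((univ : Set B) ×ˢ Metric.sphere (0 : F) 1) :=
      isCompact_univ.prod (isCompact_sphere 0 1)
    obtain ⟨a, a0, h⟩ := k.exists_forall_le' (f := fun w : B × F => ‖H w.1 w.2‖) (a := 0)
      (Continuous.continuousOn (by fun_prop)) fun w hw => norm_pos_iff.2 fun z => by
        simpa [hi _ _ z] using hw.2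
    refine ⟨a, a0, fun b v => ?_⟩
    by_cases z : v = 0
    · simp [z]
    have p := norm_pos_iff.2 z
    have := h (b, ‖v‖⁻¹ • v) ⟨trivial, by simp [norm_smul, p.ne']⟩
    simp only [map_smul, norm_smul, norm_inv, norm_norm] at this
    rwa [le_inv_mul_iff₀ p, mul_comm] at this
  choose P h hn using fun b => ex (hs b) (ha b)
  refine ⟨P, a, a0, ?_, fun b => ⟨(h b).1, (h b).2.1⟩, fun b => (h b).2.2.1, hn, fun b v z => ?_⟩
  · refine continuousOn_univ.1 (C.Toe.cont_of_graph (Γ := {w : B × (F →L[ℝ] F) | Cd (H w.1) w.2})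
      ((isCompact_univ.prod (isCompact_closedBall (0 : F →L[ℝ] F) 1)).of_isClosed_subset ?_
        fun w hw => ⟨trivial, mem_closedBall_zero_iff.2 (Cd.norm hw)⟩) fun x p =>
      ⟨fun k => ⟨trivial, uniq (hs x) (hi x) k (h x)⟩, fun k => k.2 ▸ h x⟩)
    simp only [Cd, ofPred_and, ofPred_forall]
    refine (isClosed_iInter fun v => isClosed_eq ?_ ?_).inter ((isClosed_iInter fun v =>
      isClosed_iInter fun w => isClosed_eq ?_ ?_).inter ((isClosed_iInter fun v =>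
      isClosed_eq ?_ ?_).inter ((isClosed_iInter fun v => isClosed_le ?_ ?_).inter
      (isClosed_iInter fun v => isClosed_le ?_ ?_)))) <;> fun_prop
  · simpa [z] using (h b).2.2.2.2 v

end Crest.Agent.N218.En

end
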