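import Crest.Agent.N218.En.Defs

/-! Row 218, END wrapper (helper82): stabilisation of gradient data. -/

set_option autoImplicit false
set_option linter.unusedSectionVars false
open Set Topology
open scoped InnerProductSpace

noncomputable section

namespace Crest.Agent.N218.En
open Pm Sk

namespace Sa
variable {F E : Type} [NormedAddCommGroup F] [InnerProductSpace ℝ F] [NormedAddCommGroup E]
  [InnerProductSpace ℝ E] {π : E →L[ℝ] E}

theorem ext2 {v w : P2 F E} (a : v.fst = w.fst) (b : v.snd = w.snd) : v = w :=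
  WithLp.ofLp_injective 2 (Prod.ext a b)

theorem inn (v w : P2 F E) : ⟪v, w⟫_ℝ = ⟪v.fst, w.fst⟫_ℝ + ⟪v.snd, w.snd⟫_ℝ := rfl

theorem n_le (v : P2 F E) : ‖v‖ ≤ ‖v.fst‖ + ‖v.snd‖ := by
  refine le_of_sq_le_sq ?_ (by positivity)
  rw [WithLp.prod_norm_sq_eq_of_L2]
  nlinarith [mul_nonneg (norm_nonneg v.fst) (norm_nonneg v.snd)]

theorem n1 (v : P2 F E) : ‖v.fst‖ ≤ ‖v‖ := WithLp.norm_fst_le _ v
theorem n2 (v : P2 F E) : ‖v.snd‖ ≤ ‖v‖ := WithLp.norm_snd_le _ v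

theorem op_pm {p : F →L[ℝ] F} (h : Op p) (h' : Op π) : Op (pm p π) :=
  ⟨fun v => ext2 (h.id _) (h'.id _), fun v w => by
    simp only [inn, pm_fst, pm_snd, h.sy, h'.sy]⟩

theorem op_c (h : Op π) : Op (1 - π) :=
  ⟨fun v => by simp [h.id], fun v w => by simp [inner_sub_left, inner_sub_right, h.sy]⟩

theorem s_sy (h : Op π) (u w : E) :
    ⟪u - (2 : ℝ) • π u, w⟫_ℝ = ⟪u, w - (2 : ℝ) • π w⟫_ℝ := by
  simp only [inner_sub_left, inner_sub_right, real_inner_smul_left, real_inner_smul_right, h.sy]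

theorem s_n (h : Op π) (u : E) : ‖u - (2 : ℝ) • π u‖ = ‖u‖ := by
  rw [← sq_eq_sq₀ (norm_nonneg _) (norm_nonneg _), ← real_inner_self_eq_norm_sq,
    ← real_inner_self_eq_norm_sq, s_sy h, map_sub, map_smul, h.id]
  congr 1
  module

theorem pm_ct [FiniteDimensional ℝ F] [FiniteDimensional ℝ E] {B : Type} [TopologicalSpace B]
    {H : B → F →L[ℝ] F} (h : Continuous H) (S : E →L[ℝ] E) : Continuous fun b => pm (H b) S :=
  continuous_clm_apply.2 fun v => by simp only [pm_apply]; fun_prop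

end Sa
open Sa

theorem sta : STA := by
  intro B F _ _ _ _ _ _ _ G h E _ _ _ _ π hπ
  refine ⟨⟨op_pm h.o₁ hπ, op_pm h.op (op_c hπ), fun v => ⟨ext2 (h.oz _).1 ?_, ext2 (h.oz _).2 ?_⟩,
    add_pos h.C0 one_pos, h.δ0, h.ρ0, h.ρC.trans (le_add_of_nonneg_right zero_le_one),
    h.Dc.preimage (f := fun w : B × P2 F E => (w.1, w.2.fst)) (by fun_prop), fun w hw => ?_, ?_,
    fun w => h.RD (w.1, w.2.fst), fun w => ext2 (h.R₁ (w.1, w.2.fst)) rfl,
    fun w => ext2 (h.Rp (w.1, w.2.fst)) rfl, ?_, ?_, fun b v => ?_, fun w => ?_, fun b v v' => ?_,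
    fun b v v' hv d => add_le_add (h.mono b v.fst v'.fst hv ((n1 (v' - v)).trans d)) le_rfl,
    fun w => ?_, fun w hw z => ext2 (h.crit (w.1, w.2.fst) hw (congrArg WithLp.fst z)) ?_,
    fun w a => ?_, fun b => ⟨?_, ext2 (h.g0 b).2 ?_⟩⟩, fun q => ⟨⟨pm_ct q.ct _, fun b v w => ?_,
      fun b v z => ext2 (q.inj b _ (congrArg WithLp.fst z)) ?_,
      fun w hw => ext2 (q.id (w.1, w.2.fst) hw) rfl⟩, fun b v a => ?_⟩,
    fun P a n => ⟨lt_min n.a0 one_pos, pm_ct n.ct _, fun b => op_pm (n.op b) hπ,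
      fun b v => ext2 (n.cm b _) ?_, fun b v => ?_, fun b v z => ?_⟩⟩
  · simp [Gb.st, hπ.id]
  · simp [Gb.st, hπ.id]
  · refine (n_le _).trans (add_le_add (h.Db (w.1, w.2.fst) hw) ?_)
    simp [Gb.st]
  · have := h.Rc
    simp only [Gb.st]; fun_prop
  · have := h.gc
    have c : Continuous fun w : B × P2 F E => w.2.snd := by fun_prop
    exact (h.gc.comp (f := fun w : B × P2 F E => (w.1, w.2.fst)) (by fun_prop)).add
      (continuous_const.mul ((c.sub ((π.continuous.comp c).const_smul _)).inner c))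
  · have := h.grc
    simp only [Gb.st]; fun_prop
  · let l₁ : P2 F E →L[ℝ] F := (ContinuousLinearMap.fst ℝ F E).comp
      (WithLp.prodContinuousLinearEquiv 2 ℝ F E : P2 F E →L[ℝ] F × E)
    let l₂ : P2 F E →L[ℝ] E := (ContinuousLinearMap.snd ℝ F E).comp
      (WithLp.prodContinuousLinearEquiv 2 ℝ F E : P2 F E →L[ℝ] F × E)
    have a := (h.gd b v.fst).hasFDerivAt.comp v (l₁.hasFDerivAt (x := v))
    have c := ((((1 - (2 : ℝ) • π).comp l₂).hasFDerivAt (x := v)).inner ℝ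
      (l₂.hasFDerivAt (x := v))).const_mul (1 / 2 : ℝ)
    refine hasGradientAt_iff_hasFDerivAt.2 ((a.add c).congr_fderiv ?_)
    ext u
    change ⟪G.gr (b, v.fst), u.fst⟫_ℝ + 1 / 2 * (⟪v.snd - (2 : ℝ) • π v.snd, u.snd⟫_ℝ +
      ⟪u.snd - (2 : ℝ) • π u.snd, v.snd⟫_ℝ) =
      ⟪G.gr (b, v.fst), u.fst⟫_ℝ + ⟪v.snd - (2 : ℝ) • π v.snd, u.snd⟫_ℝ
    rw [s_sy hπ u.snd, real_inner_comm u.snd]
    ring
  · refine (n_le _).trans (add_le_add (h.gb (w.1, w.2.fst)) ?_)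
    have : ((G.st π).gr w - ((G.st π).pp w.2 - (G.st π).p₁ w.2)).snd = 0 := by
      change w.2.snd - (2 : ℝ) • π w.2.snd - (w.2.snd - π w.2.snd - π w.2.snd) = 0
      module
    rw [this, norm_zero]; exact zero_le_one
  · have e : ((G.st π).gr (b, v) - (G.st π).gr (b, v')).snd =
        (v - v').snd - (2 : ℝ) • π (v - v').snd := by
      change v.snd - (2 : ℝ) • π v.snd - (v'.snd - (2 : ℝ) • π v'.snd) =
        v.snd - v'.snd - (2 : ℝ) • π (v.snd - v'.snd)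
      rw [map_sub]; module
    refine (n_le _).trans ?_
    rw [e, s_n hπ]
    exact (add_le_add ((h.gl b v.fst v'.fst).trans (mul_le_mul_of_nonneg_left (n1 (v - v'))
      h.C0.le)) (n2 _)).trans_eq (add_one_mul _ _).symm
  · have := h.big (w.1, w.2.fst)
    change G.g (w.1, G.Rr (w.1, w.2.fst)) + 1 / 2 * ⟪w.2.snd - (2 : ℝ) • π w.2.snd, w.2.snd⟫_ℝ ≤
      G.g (w.1, w.2.fst) + 1 / 2 * ⟪w.2.snd - (2 : ℝ) • π w.2.snd, w.2.snd⟫_ℝ + (G.C + 1)
    linarith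
  · exact norm_eq_zero.1 ((s_n hπ _).symm.trans (norm_eq_zero.2 (congrArg WithLp.snd z)))
  · have := h.nr (w.1, w.2.fst) ((n1 _).trans a)
    exact ⟨this.1, ext2 this.2 rfl⟩
  · simp [Gb.st, (h.g0 b).1]
  · simp [Gb.st]
  · exact congrArg₂ (· + ·) (q.sy b _ _) (s_sy hπ _ _)
  · exact norm_eq_zero.1 ((s_n hπ _).symm.trans (norm_eq_zero.2 (congrArg WithLp.snd z)))
  · have := q.qd b v.fst ((n1 _).trans a)
    exact ⟨(congrArg (· + _) this.1).trans (mul_add _ _ _).symm, ext2 this.2 rfl⟩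
  · simp [Gb.st]
  · have e : π v.snd - (2 : ℝ) • π (π v.snd) = -π v.snd := by rw [hπ.id]; module
    have := n.ng b v.fst
    change ⟪G.H b (P b v.fst), P b v.fst⟫_ℝ + ⟪π v.snd - (2 : ℝ) • π (π v.snd), π v.snd⟫_ℝ ≤ _
    rw [e, inner_neg_left, real_inner_self_eq_norm_sq, WithLp.prod_norm_sq_eq_of_L2, pm_fst, pm_snd]
    nlinarith [mul_le_mul_of_nonneg_right (min_le_left a 1) (sq_nonneg ‖P b v.fst‖),
      mul_le_mul_of_nonneg_right (min_le_right a 1) (sq_nonneg ‖π v.snd‖)]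
  · have e : π v.snd = 0 := congrArg WithLp.snd z
    change 0 ≤ ⟪G.H b v.fst, v.fst⟫_ℝ + ⟪v.snd - (2 : ℝ) • π v.snd, v.snd⟫_ℝ
    rw [e, smul_zero, sub_zero]
    exact add_nonneg (n.ps b _ (congrArg WithLp.fst z)) real_inner_self_nonneg

end Crest.Agent.N218.En

end
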