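import Crest.Agent.N218.En.Defs
import Crest.Agent.N218.Sk.Stb

/-! Row 218, END wrapper (helper80): `STE`. -/

set_option autoImplicit false
open Set

noncomputable section

namespace Crest.Agent.N218.En
open Pm Sk

theorem ste : STE := by
  intro B F E _ _ _ _ _ _ _ _ _ A _ T k f π ε hk hπ e0 e1 g
  obtain ⟨o, h⟩ := Stb.prod T hk g.ct g.ok (B := 1 - (2 : ℝ) • π)
    (fun z => by simp [hπ.id]; module) e0 (by linarith)
  let e : V k (P2 F E) ≃L[ℝ] V k (F × E) :=
    .piCongrRight fun _ => WithLp.prodContinuousLinearEquiv 2 ℝ F E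
  refine Pe.trans (.inl (congrArg (T.pa k (sp (P2 F E))) ?_))
    ((T.pa_cj k (sp (F × E)) (sp (P2 F E)) e _ hk o fun _ => rfl).trans h)
  refine congrArg₂ Pb.mk (Set.ext fun x => and_congr ?_ Iff.rfl) (funext fun x => funext fun i => ?_)
  · exact (e.map_ne_zero_iff (x := mn x.2)).symm
  · rfl

end Crest.Agent.N218.En
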