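import Crest.Agent.N218.En.Defs

/-! Row 218, END wrapper (helper82): translations. -/

set_option autoImplicit false
open Set Topology

noncomputable section

namespace Crest.Agent.N218.En
open Pm Sk

/-- good families are stable under translations -/
theorem gf_tr {B F : Type} [TopologicalSpace B] [CompactSpace B] [NormedAddCommGroup F]
    [NormedSpace ℝ F] {k : ℕ} {f : B × F → F} (h : Gf k f) {c : B → F} (hc : Continuous c) :
    Gf k fun w : B × F => f (w.1, w.2 - c w.1) + c w.1 := by
  obtain ⟨A, C, hA, hC⟩ := h.lin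
  obtain ⟨δ, d0, hd⟩ := h.adm
  have hf := h.ct
  obtain ⟨C', h'⟩ := isCompact_univ.exists_bound_of_continuousOn
    (f := fun b => c b - A (c b)) (by fun_prop)
  refine ⟨by fun_prop, ⟨A, C + C', hA, fun x => ?_⟩, δ, d0, fun b s z s0 a e => ?_⟩
  · have e : f (x.1, x.2 - c x.1) + c x.1 - A x.2 =
        (f (x.1, x.2 - c x.1) - A (x.2 - c x.1)) + (c x.1 - A (c x.1)) := by
      rw [map_sub]; abel
    rw [e]
    exact (norm_add_le _ _).trans (add_le_add (hC (x.1, x.2 - c x.1)) (h' _ trivial))
  · have m : mn (fun i => z i - c b : V k F) = mn z := funext fun i => by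
      simp only [mn, sub_sub_sub_cancel_right]
    rw [← m] at a e ⊢
    refine hd b s _ s0 a fun i => Eq.trans ?_ (e i)
    abel

theorem trl : TRL := fun B F _ _ _ _ _ _ A _ T k f c hk hc h =>
  (gf_tr (h.pull (φ := (Prod.fst : B × unitInterval → B)) continuous_fst)
    (c := fun b : B × unitInterval => (b.2 : ℝ) • c b.1) (by fun_prop)).pa T hk
    (fun x => by simp) fun x => by simp

end Crest.Agent.N218.En

end
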