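import Crest.Agent.N218.En.Defs
import Crest.Agent.N218.D8.Fin
import Mathlib.Analysis.InnerProductSpace.GramSchmidtOrtho

/-! # Row 218, END wrapper (helper54): real bundles over `S¹¹` have stable orthonormal frames -/

set_option autoImplicit false
set_option linter.unusedVariables false
set_option linter.unusedSectionVars false

open Set Matrix Module InnerProductSpace Metric
open scoped InnerProductSpace Topology

noncomputable section

namespace Crest.Agent.N218.En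

namespace Tv

section gs
variable {B W : Type} [TopologicalSpace B] [NormedAddCommGroup W] [InnerProductSpace ℝ W] {m : ℕ}

theorem gs_c {f : B → Fin m → W} (hf : ∀ i, Continuous fun b => f b i)
    (li : ∀ b, LinearIndependent ℝ (f b)) (n : Fin m) :
    Continuous fun b => gramSchmidt ℝ (f b) n := by
  induction n using WellFoundedLT.induction with
  | ind n ih =>
  have : (fun b => gramSchmidt ℝ (f b) n) = fun b => f b n - ∑ i ∈ Finset.Iio n,
      (⟪gramSchmidt ℝ (f b) i, f b n⟫_ℝ / ‖gramSchmidt ℝ (f b) i‖ ^ 2) • gramSchmidt ℝ (f b) i :=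
    funext fun b => eq_sub_of_add_eq (gramSchmidt_def'' ℝ (f b) n).symm
  rw [this]
  refine (hf n).sub (continuous_finsetSum _ fun i hi => ?_)
  have := ih i (Finset.mem_Iio.1 hi)
  exact ((this.inner (hf n)).div (this.norm.pow 2) fun b =>
    pow_ne_zero _ (norm_ne_zero_iff.2 (gramSchmidt_ne_zero i (li b)))).smul this

/-- a continuous frame can be made orthonormal -/
theorem frame [FiniteDimensional ℝ W] {Q : B → W →L[ℝ] W} (hQ : ∀ b, Op (Q b))
    (T : B → (Fin m → ℝ) →ₗ[ℝ] W) (hT : ∀ w, Continuous fun b => T b w)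
    (inj : ∀ b w, T b w = 0 → w = 0) (hr : ∀ b w, Q b (T b w) = T b w)
    (hs : ∀ b u, ∃ w, Q b u = T b w) :
    ∃ (ι : B → C.Eu m →L[ℝ] W) (ι' : _), Fr Q ι ι' := by
  have li b : LinearIndependent ℝ (T b ∘ Pi.basisFun ℝ (Fin m)) :=
    (Pi.basisFun ℝ (Fin m)).linearIndependent.map' _ (LinearMap.ker_eq_bot'.2 (inj b))
  obtain ⟨v, hv⟩ : ∃ v : B → Fin m → W,
    v = fun b => gramSchmidtNormed ℝ (T b ∘ Pi.basisFun ℝ (Fin m)) := ⟨_, rfl⟩
  have vc i : Continuous fun b => v b i := by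
    have := gs_c (f := fun b => T b ∘ Pi.basisFun ℝ (Fin m)) (fun i => hT _) li i
    rw [hv]
    exact (this.norm.inv₀ fun b => norm_ne_zero_iff.2 (gramSchmidt_ne_zero i (li b))).smul this
  have vo b : Orthonormal ℝ (v b) := by rw [hv]; exact gramSchmidtNormed_orthonormal (li b)
  have vs b : Submodule.span ℝ (range (v b)) = LinearMap.range (T b) := by
    rw [hv, span_gramSchmidtNormed_range, span_gramSchmidt, range_comp, Submodule.span_image,
      Basis.span_eq, Submodule.map_top]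
  have vq b i : Q b (v b i) = v b i := by
    obtain ⟨w, e⟩ : v b i ∈ LinearMap.range (T b) := vs b ▸ Submodule.subset_span ⟨i, rfl⟩
    rw [← e, hr]
  let ι : B → C.Eu m →L[ℝ] W := fun b => ∑ i, (EuclideanSpace.proj i).smulRight (v b i)
  let ι' : B → W →L[ℝ] C.Eu m := fun b =>
    ((EuclideanSpace.equiv (Fin m) ℝ).symm : (Fin m → ℝ) →L[ℝ] C.Eu m).comp
      (ContinuousLinearMap.pi fun i => innerSL ℝ (v b i))
  have e1 b z : ι b z = ∑ i, z i • v b i := by simp [ι]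
  have e2 b u i : ι' b u i = ⟪v b i, u⟫_ℝ := rfl
  refine ⟨ι, ι', continuous_clm_apply.2 fun z => ?_, continuous_clm_apply.2 fun u => ?_,
    fun b z u => ?_, fun b z => ?_, fun b u => ?_⟩
  · simp only [e1]
    exact continuous_finsetSum _ fun i _ => (vc i).const_smul _
  · exact (EuclideanSpace.equiv (Fin m) ℝ).symm.continuous.comp
      (continuous_pi fun i => (vc i).inner continuous_const)
  · rw [e1, sum_inner, PiLp.inner_apply]
    exact Finset.sum_congr rfl fun i _ => by rw [e2, real_inner_smul_left]; simp [mul_comm]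
  · ext i
    rw [e2, e1]
    exact (vo b).inner_right_fintype _ i
  · obtain ⟨w, e⟩ := hs b u
    have : Q b u ∈ Submodule.span ℝ (range (v b)) := vs b ▸ ⟨w, e.symm⟩
    obtain ⟨c, hc⟩ := (Submodule.mem_span_range_iff_exists_fun ℝ).1 this
    rw [e1, ← hc]
    refine Finset.sum_congr rfl fun i _ => ?_
    rw [e2, ← vq, (hQ b).sy, ← hc, (vo b).inner_right_fintype, vq]
end gs

section sph
variable {X : Type} [NormedAddCommGroup X] [InnerProductSpace ℝ X] {e : X}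

/-- the collapse of the unit ball onto the sphere -/
def cc (e : X) (x : (ℝ ∙ e)ᗮ) : X :=
  (1 - 2 * min ‖x‖ 1 ^ 2) • e + (2 * √(1 - ‖x‖ ^ 2)) • (x : X)

theorem ort (x : (ℝ ∙ e)ᗮ) : ⟪e, (x : X)⟫_ℝ = 0 :=
  Submodule.mem_orthogonal_singleton_iff_inner_right.1 x.2

theorem cc_in (he : ‖e‖ = 1) (x : (ℝ ∙ e)ᗮ) : ⟪e, cc e x⟫_ℝ = 1 - 2 * min ‖x‖ 1 ^ 2 := by
  rw [cc, inner_add_right, real_inner_smul_right, real_inner_smul_right, ort,
    real_inner_self_eq_norm_sq, he]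
  ring

theorem cc_out (x : (ℝ ∙ e)ᗮ) (h : 1 ≤ ‖x‖) : cc e x = -e := by
  rw [cc, min_eq_right h, Real.sqrt_eq_zero'.2 (by nlinarith)]
  norm_num

theorem cc_n (he : ‖e‖ = 1) (x : (ℝ ∙ e)ᗮ) : ‖cc e x‖ = 1 := by
  rcases le_total 1 ‖x‖ with h | h
  · rw [cc_out x h, norm_neg, he]
  have h0 := norm_nonneg x
  have : ‖cc e x‖ ^ 2 = 1 := by
    rw [cc, norm_add_sq_real, real_inner_smul_left, real_inner_smul_right, ort, norm_smul,
      norm_smul, he, mul_one, mul_pow, Real.norm_eq_abs, Real.norm_eq_abs, sq_abs, sq_abs, mul_pow,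
      Real.sq_sqrt (by nlinarith), min_eq_left h, Submodule.coe_norm]
    ring
  nlinarith [norm_nonneg (cc e x)]

theorem cc_inj (he : ‖e‖ = 1) {x x' : (ℝ ∙ e)ᗮ} (h : ‖x‖ ≤ 1) (h' : ‖x'‖ ≤ 1)
    (q : cc e x = cc e x') : x = x' ∨ (‖x‖ = 1 ∧ ‖x'‖ = 1) := by
  have a := cc_in he x
  rw [q, cc_in he, min_eq_left h, min_eq_left h'] at a
  have n : ‖x‖ = ‖x'‖ := by nlinarith [norm_nonneg x, norm_nonneg x']
  rcases h.eq_or_lt with r | r
  · exact .inr ⟨r, n ▸ r⟩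
  rw [cc, cc, ← n, add_right_inj] at q
  have : 0 < √(1 - ‖x‖ ^ 2) := Real.sqrt_pos.2 (by nlinarith [norm_nonneg x])
  exact .inl (Subtype.ext (smul_right_injective X (by positivity) q))

theorem cc_sur (he : ‖e‖ = 1) [Nontrivial (ℝ ∙ e)ᗮ] {z : X} (hz : ‖z‖ = 1) :
    ∃ x, ‖x‖ ≤ 1 ∧ cc e x = z := by
  obtain ⟨a, ha⟩ : ∃ a, a = ⟪e, z⟫_ℝ := ⟨_, rfl⟩
  have m : z - a • e ∈ (ℝ ∙ e)ᗮ := Submodule.mem_orthogonal_singleton_iff_inner_right.2 (by
    rw [inner_sub_right, real_inner_smul_right, real_inner_self_eq_norm_sq, he, ha]; ring)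
  have n : ‖z - a • e‖ ^ 2 = 1 - a ^ 2 := by
    rw [norm_sub_sq_real, real_inner_smul_right, real_inner_comm, ← ha, norm_smul, he, hz,
      mul_one, Real.norm_eq_abs, sq_abs]
    ring
  have l : -1 ≤ a := by nlinarith [sq_nonneg ‖z - a • e‖]
  rcases l.eq_or_lt with r | r
  · obtain ⟨x, hx⟩ := exists_norm_eq (ℝ ∙ e)ᗮ zero_le_one
    refine ⟨x, hx.le, ?_⟩
    rw [cc_out x hx.ge]
    rw [← r] at n
    have : z - (-1 : ℝ) • e = 0 := norm_eq_zero.1 (by nlinarith)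
    rw [sub_eq_zero.1 this, neg_one_smul]
  obtain ⟨s, hs⟩ : ∃ s, s = √((1 + a) / 2) := ⟨_, rfl⟩
  have s0 : 0 < s := hs ▸ Real.sqrt_pos.2 (by linarith)
  have s2 : s ^ 2 = (1 + a) / 2 := hs ▸ Real.sq_sqrt (by linarith)
  have k : ‖(2 * s)⁻¹ • (⟨_, m⟩ : (ℝ ∙ e)ᗮ)‖ ^ 2 = (1 - a) / 2 := by
    rw [norm_smul, mul_pow, Real.norm_eq_abs, sq_abs, Submodule.coe_norm, n, inv_pow, mul_pow, s2]
    have : 1 + a ≠ 0 := by linarith
    field_simp
    ring
  have k1 : ‖(2 * s)⁻¹ • (⟨_, m⟩ : (ℝ ∙ e)ᗮ)‖ ≤ 1 := by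
    nlinarith [norm_nonneg ((2 * s)⁻¹ • (⟨_, m⟩ : (ℝ ∙ e)ᗮ))]
  refine ⟨_, k1, ?_⟩
  rw [cc, min_eq_left k1, k, show 1 - (1 - a) / 2 = (1 + a) / 2 by ring, ← hs, Submodule.coe_smul,
    smul_inv_smul₀ (by positivity), show 1 - 2 * ((1 - a) / 2) = a by ring, add_sub_cancel]

/-- descent along the collapse -/
theorem desc [FiniteDimensional ℝ X] (he : ‖e‖ = 1) [Nontrivial (ℝ ∙ e)ᗮ] {M : Type}
    [TopologicalSpace M] (g : (ℝ ∙ e)ᗮ → M) (hg : Continuous g) (o : M)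
    (h1 : ∀ x, ‖x‖ = 1 → g x = o) : ∃ G : sphere (0 : X) 1 → M, Continuous G ∧
      ∀ z, ∃ x, ‖x‖ ≤ 1 ∧ cc e x = z.1 ∧ G z = g x := by
  choose s h1s h2s using fun z : sphere (0 : X) 1 => cc_sur he (norm_eq_of_mem_sphere z)
  refine ⟨fun z => g (s z), ?_, fun z => ⟨s z, h1s z, h2s z, rfl⟩⟩
  let c : closedBall (0 : (ℝ ∙ e)ᗮ) 1 → sphere (0 : X) 1 := fun x =>
    ⟨cc e x.1, mem_sphere_zero_iff_norm.2 (cc_n he _)⟩
  have hc : Continuous c := Continuous.subtype_mk (by unfold cc; fun_prop) _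
  have hs : Function.Surjective c := fun z =>
    ⟨⟨s z, mem_closedBall_zero_iff.2 (h1s z)⟩, Subtype.ext (h2s z)⟩
  rw [(hc.isClosedMap.isQuotientMap hc hs).continuous_iff]
  refine (hg.comp continuous_subtype_val).congr fun x => ?_
  rcases cc_inj he (mem_closedBall_zero_iff.1 x.2) (h1s (c x)) (h2s (c x)).symm with r | r
  · exact congrArg g r
  · exact (h1 _ r.1).trans (h1 _ r.2).symm
end sph

/-- inversion in the unit sphere -/
theorem inv_c {E M : Type} [NormedAddCommGroup E] [NormedSpace ℝ E] [TopologicalSpace M]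
    {g : E → M} (hg : Continuous g) {o : M} {r : ℝ} (h : ∀ x, r ≤ ‖x‖ → g x = o) :
    ∃ k : E → M, Continuous k ∧ (∀ x, ‖x‖ = 1 → k x = g x) ∧
      ∀ x, ‖x‖ ≤ 1 → k x = o ∨ ∃ y, 1 ≤ ‖y‖ ∧ k x = g y := by
  classical
  have n (x : E) (hx : x ≠ 0) : ‖(‖x‖ ^ 2)⁻¹ • x‖ = ‖x‖⁻¹ := by
    have := norm_pos_iff.2 hx
    rw [norm_smul, Real.norm_of_nonneg (by positivity)]
    field_simp
  refine ⟨fun x => if x = 0 then o else g ((‖x‖ ^ 2)⁻¹ • x), continuous_iff_continuousAt.2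
    fun x => ?_, fun x hx => ?_, fun x hx => ?_⟩
  · by_cases hx : x = 0
    · subst hx
      have p : 0 < (max r 1)⁻¹ := by positivity
      refine (continuousAt_const (y := o)).congr ?_
      filter_upwards [ball_mem_nhds (0 : E) p] with y hy
      split_ifs with q
      · rfl
      · refine (h _ ?_).symm
        rw [n y q]
        exact (le_max_left r 1).trans ((le_inv_comm₀ (by positivity) (norm_pos_iff.2 q)).2
          (mem_ball_zero_iff.1 hy).le)
    · have : ContinuousAt (fun y : E => g ((‖y‖ ^ 2)⁻¹ • y)) x :=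
        hg.continuousAt.comp (((continuous_norm.pow 2).continuousAt.inv₀
          (pow_ne_zero _ (norm_ne_zero_iff.2 hx))).smul continuousAt_id)
      refine this.congr ?_
      filter_upwards [isOpen_ne.mem_nhds hx] with y hy
      rw [if_neg hy]
  · have : x ≠ 0 := norm_ne_zero_iff.1 (hx ▸ one_ne_zero)
    simp only [if_neg this, hx, one_pow, inv_one, one_smul]
  · by_cases q : x = 0
    · exact .inl (if_pos q)
    · exact .inr ⟨_, by rw [n x q]; exact (one_le_inv₀ (norm_pos_iff.2 q)).2 hx, if_neg q⟩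

/-- stable frames of idempotent matrices over `S¹¹` -/
theorem tri {X : Type} [NormedAddCommGroup X] [InnerProductSpace ℝ X] (hX : finrank ℝ X = 11 + 1)
    {ι : Type} [Fintype ι] [DecidableEq ι] (p : sphere (0 : X) 1 → Matrix ι ι ℝ)
    (hp : Continuous p) (pp : ∀ z, p z * p z = p z) :
    ∃ (k m : ℕ) (x : sphere (0 : X) 1 → Matrix (ι ⊕ (Fin k ⊕ Fin k)) (Fin m) ℝ)
      (y : sphere (0 : X) 1 → Matrix (Fin m) (ι ⊕ (Fin k ⊕ Fin k)) ℝ), Continuous x ∧
      (∀ z, x z * y z = D8.st (Fin k) (Fin k) (p z)) ∧ ∀ z, y z * x z = 1 := by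
  have : FiniteDimensional ℝ X := Module.finite_of_finrank_eq_succ hX
  have : Nontrivial X := Module.nontrivial_of_finrank_eq_succ hX
  have : Fact (finrank ℝ X = 11 + 1) := ⟨hX⟩
  obtain ⟨e, he⟩ := exists_norm_eq X zero_le_one
  have hE : finrank ℝ (ℝ ∙ e)ᗮ = 11 :=
    Submodule.finrank_orthogonal_span_singleton (norm_ne_zero_iff.1 (he ▸ one_ne_zero))
  have : Nontrivial (ℝ ∙ e)ᗮ := Module.nontrivial_of_finrank_eq_succ (n := 10) hE
  let c : (ℝ ∙ e)ᗮ → sphere (0 : X) 1 := fun x => ⟨cc e x, mem_sphere_zero_iff_norm.2 (cc_n he _)⟩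
  have hc : Continuous c := Continuous.subtype_mk (by unfold cc; fun_prop) _
  let z₀ : sphere (0 : X) 1 := ⟨-e, by simp [he]⟩
  have c1 x (h : 1 ≤ ‖x‖) : p (c x) = p z₀ := congrArg p (Subtype.ext (cc_out x h))
  obtain ⟨k, r, g, cg, ug, g1, gp⟩ := D8.triv' _ hE ι (fun x => p (c x)) (p z₀) 1 (hp.comp hc)
    (fun x => pp _) c1
  obtain ⟨q, hq⟩ : ∃ q, q = D8.st (Fin k) (Fin k) (p z₀) := ⟨_, rfl⟩
  have qq : q * q = q := by simp [hq, D8.st, fromBlocks_multiply, pp]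
  obtain ⟨m, a, b, ab, ba⟩ := D8.split_idem qq
  obtain ⟨h, ch, h1, h2⟩ := inv_c cg g1
  have hh x (hx : ‖x‖ ≤ 1) : IsUnit (h x) ∧ h x * q = q * h x := by
    rcases h2 x hx with r | ⟨y, hy, r⟩ <;> rw [r]
    · exact ⟨isUnit_one, by rw [one_mul, mul_one]⟩
    · exact ⟨ug y, by have := gp y; rwa [c1 y hy, ← hq] at this⟩
  have gi x : (g x)⁻¹ * g x = 1 := nonsing_inv_mul _ ((isUnit_iff_isUnit_det _).1 (ug x))
  obtain ⟨W, cW, hW⟩ := desc he (fun x => (g x)⁻¹ * h x) ((D8.Pi.cont_inv cg ug).matrix_mul ch) 1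
    fun x hx => by simp only [h1 x hx, gi]
  have k1 z : IsUnit (W z) ∧ D8.st (Fin k) (Fin k) (p z) * W z = W z * q := by
    obtain ⟨x, hx, e1, e2⟩ := hW z
    obtain rfl : c x = z := Subtype.ext e1
    rw [e2]
    refine ⟨(IsUnit.of_mul_eq_one _ (gi x)).mul (hh x hx).1, ?_⟩
    have := gp x
    rw [← hq] at this
    calc _ = (g x)⁻¹ * (g x * D8.st (Fin k) (Fin k) (p (c x))) * (g x)⁻¹ * h x := by
          rw [← Matrix.mul_assoc (g x)⁻¹, gi, Matrix.one_mul, Matrix.mul_assoc]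
      _ = (g x)⁻¹ * q * (g x * (g x)⁻¹) * h x := by rw [this]; simp only [Matrix.mul_assoc]
      _ = _ := by
          rw [D8.Pi.mul_inv' (ug x), Matrix.mul_one, Matrix.mul_assoc, ← (hh x hx).2,
            Matrix.mul_assoc]
  refine ⟨k, m, fun z => W z * a, fun z => b * (W z)⁻¹, cW.matrix_mul continuous_const,
    fun z => ?_, fun z => ?_⟩
  · rw [Matrix.mul_assoc, ← Matrix.mul_assoc a, ab, ← Matrix.mul_assoc, ← (k1 z).2,
      Matrix.mul_assoc, D8.Pi.mul_inv' (k1 z).1, Matrix.mul_one]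
  · rw [Matrix.mul_assoc, ← Matrix.mul_assoc (W z)⁻¹,
      nonsing_inv_mul _ ((isUnit_iff_isUnit_det _).1 (k1 z).1), Matrix.one_mul, ba]

section lam
variable {F ι : Type} [NormedAddCommGroup F] [InnerProductSpace ℝ F] [Fintype ι] [DecidableEq ι]
  (β : Basis ι ℝ F) (k : ℕ)

/-- coordinates -/
def La : (ι ⊕ (Fin k ⊕ Fin k) → ℝ) →ₗ[ℝ] P2 F (C.Eu k) where
  toFun w := WithLp.toLp 2 (β.equivFun.symm (w ∘ .inl), WithLp.toLp 2 (w ∘ .inr ∘ .inl))
  map_add' v w := by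
    rw [← WithLp.toLp_add, Prod.mk_add_mk, ← map_add, ← WithLp.toLp_add]; rfl
  map_smul' c w := by
    rw [RingHom.id_apply, ← WithLp.toLp_smul, Prod.smul_mk, ← map_smul, ← WithLp.toLp_smul]; rfl

theorem La_sur (u : P2 F (C.Eu k)) : ∃ w, La β k w = u :=
  ⟨Sum.elim (β.equivFun u.fst) (Sum.elim u.snd.ofLp 0), by
    change WithLp.toLp 2 (β.equivFun.symm (β.equivFun u.fst), u.snd) = u
    rw [LinearEquiv.symm_apply_apply]; rfl⟩

theorem st_mv (p : Matrix ι ι ℝ) (w : ι ⊕ (Fin k ⊕ Fin k) → ℝ) : D8.st (Fin k) (Fin k) p *ᵥ w =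
    Sum.elim (p *ᵥ (w ∘ .inl)) (Sum.elim (w ∘ .inr ∘ .inl) 0) := by
  simp [D8.st, fromBlocks_mulVec, Function.comp_assoc]

theorem La_st (P : F →L[ℝ] F) (w : ι ⊕ (Fin k ⊕ Fin k) → ℝ) :
    La β k (D8.st (Fin k) (Fin k) (LinearMap.toMatrix β β (P : F →ₗ[ℝ] F)) *ᵥ w) =
      pm P 1 (La β k w) := by
  rw [st_mv]
  change WithLp.toLp 2 (β.equivFun.symm (LinearMap.toMatrix β β (P : F →ₗ[ℝ] F) *ᵥ (w ∘ .inl)), _) =
    WithLp.toLp 2 (P (β.equivFun.symm (w ∘ .inl)), _)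
  congr 2
  rw [LinearEquiv.symm_apply_eq]
  have := LinearMap.toMatrix_mulVec_repr β β (P : F →ₗ[ℝ] F) (β.equivFun.symm (w ∘ .inl))
  rwa [← β.equivFun_apply, LinearEquiv.apply_symm_apply] at this

theorem La_inj (p : Matrix ι ι ℝ) (w : ι ⊕ (Fin k ⊕ Fin k) → ℝ)
    (h : D8.st (Fin k) (Fin k) p *ᵥ w = w) (h0 : La β k w = 0) : w = 0 := by
  rw [st_mv] at h
  have h1 : β.equivFun.symm (w ∘ .inl) = 0 := congrArg WithLp.fst h0
  have h2 : (WithLp.toLp 2 (w ∘ .inr ∘ .inl) : C.Eu k) = 0 := congrArg WithLp.snd h0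
  rw [map_eq_zero_iff _ β.equivFun.symm.injective] at h1
  funext i
  rcases i with i | i | i
  · exact congrFun h1 i
  · exact congrArg (fun v : C.Eu k => v i) h2
  · exact (congrFun h (.inr (.inr i))).symm
end lam

end Tv

open Tv in
theorem trv : TRV := fun F _ _ _ P hP op => by
  let β := finBasis ℝ F
  obtain ⟨k, m, x, y, cx, xy, yx⟩ := tri (X := C.X) (by simp)
    (fun z => LinearMap.toMatrix β β (P z : F →ₗ[ℝ] F))
    (continuous_matrix fun i j => by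
      simp only [LinearMap.toMatrix_apply]
      exact (LinearMap.continuous_of_finiteDimensional (β.coord i)).comp
        (hP.clm_apply continuous_const))
    (fun z => by
      rw [← LinearMap.toMatrix_mul]
      exact congrArg _ (LinearMap.ext (op z).id))
  have k1 z w : D8.st (Fin k) (Fin k) (LinearMap.toMatrix β β (P z : F →ₗ[ℝ] F)) *ᵥ (x z *ᵥ w) =
      x z *ᵥ w := by
    rw [mulVec_mulVec, ← xy, Matrix.mul_assoc, yx, Matrix.mul_one]
  refine ⟨k, m, frame (fun z => ⟨fun v => ?_, fun v w => ?_⟩)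
    (fun z => La β k ∘ₗ (x z).mulVecLin) (fun w => ?_) (fun z w h => ?_) (fun z w => ?_)
    fun z u => ?_⟩
  · rw [pm_apply, pm_fst, (op z).id]; rfl
  · simp only [WithLp.prod_inner_apply]
    exact congrArg₂ (· + ·) ((op z).sy _ _) rfl
  · exact (LinearMap.continuous_of_finiteDimensional (La β k)).comp
      (cx.matrix_mulVec continuous_const)
  · have := congrArg (y z *ᵥ ·) (La_inj β k _ _ (k1 z w) h)
    simpa only [mulVec_mulVec, yx, one_mulVec, mulVec_zero] using this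
  · exact (La_st β k (P z) _).symm.trans (congrArg _ (k1 z w))
  · obtain ⟨w, rfl⟩ := La_sur β k u
    refine ⟨y z *ᵥ w, (La_st β k (P z) _).symm.trans ?_⟩
    rw [← xy, ← mulVec_mulVec]; rfl

end Crest.Agent.N218.En

end
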