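import Crest.Agent.N218.En.Defs

/-! Row 218, END wrapper: the input of RED satisfies the axioms (helper36). -/

set_option autoImplicit false
set_option linter.unusedVariables false
set_option linter.unusedSectionVars false

open Set Topology
open scoped InnerProductSpace

noncomputable section

namespace Crest.Agent.N218.En.Wa
open Pm Sk

variable {B F : Type} [TopologicalSpace B] [NormedAddCommGroup F] [InnerProductSpace ℝ F]

theorem op_le {p : F →L[ℝ] F} (h : Op p) (v : F) : ‖p v‖ ≤ ‖v‖ := by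
  have e : ‖p v‖ ^ 2 ≤ ‖v‖ * ‖p v‖ := by
    rw [← real_inner_self_eq_norm_sq, h.sy, h.id]; exact real_inner_le_norm _ _
  by_contra hn
  push Not at hn
  nlinarith [norm_nonneg v]

theorem op_in {p : F →L[ℝ] F} (h : Op p) (v : F) : ⟪p v, v⟫_ℝ = ‖p v‖ ^ 2 := by
  rw [← real_inner_self_eq_norm_sq, h.sy v (p v), h.id, real_inner_comm]

theorem cl01 (t : ℝ) : 0 ≤ cl t ∧ cl t ≤ 1 :=
  ⟨le_max_left _ _, max_le zero_le_one (min_le_left _ _)⟩

variable [CompleteSpace F] {G : Gb B F}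

theorem pp_f (h : G.Ok) {ε : ℝ} (e0 : 0 ≤ ε) (e1 : ε ≤ 1) (w : B × F) (hw : ‖G.pp w.2‖ ≤ G.C) :
    ‖G.pp (G.f ε w)‖ ≤ G.C := by
  have e : G.pp (G.f ε w) = (1 - ε) • G.pp w.2 - ε • G.pp (G.gr w - (G.pp w.2 - G.p₁ w.2)) := by
    unfold Gb.f
    rw [h.Rp]
    simp only [map_sub, map_smul, h.op.id, (h.oz _).2]
    module
  rw [e]
  refine (norm_sub_le _ _).trans ?_
  rw [norm_smul, norm_smul, Real.norm_of_nonneg e0, Real.norm_of_nonneg (sub_nonneg.2 e1)]
  have := (op_le h.op _).trans (h.gb w)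
  nlinarith

theorem p1_f (h : G.Ok) (ε : ℝ) (w : B × F) : ∃ e, ‖e‖ ≤ G.C ∧
    G.p₁ (G.f ε w) = (1 + ε) • G.p₁ w.2 - ε • e := by
  refine ⟨G.p₁ (G.gr w - (G.pp w.2 - G.p₁ w.2)), (op_le h.o₁ _).trans (h.gb w), ?_⟩
  unfold Gb.f
  rw [h.R₁]
  simp only [map_sub, map_smul, h.o₁.id, (h.oz _).1]
  module

theorem p1_cp (h : G.Ok) (v : F) : G.p₁ (G.cp v) = G.p₁ v := by
  simp [Gb.cp, (h.oz _).1]

theorem pp_cp (h : G.Ok) (v : F) : ‖G.pp (G.cp v)‖ ≤ G.C := by
  have p : 0 < max G.C ‖G.pp v‖ := lt_max_of_lt_left h.C0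
  have e : G.pp (G.cp v) = (G.C / max G.C ‖G.pp v‖) • G.pp v := by simp [Gb.cp, h.op.id]
  rw [e, norm_smul, Real.norm_of_nonneg (div_pos h.C0 p).le, div_mul_eq_mul_div, div_le_iff₀ p]
  exact mul_le_mul_of_nonneg_left (le_max_right _ _) h.C0.le

theorem cp_id (h : G.Ok) {v : F} (hv : ‖G.pp v‖ ≤ G.C) : G.cp v = v := by
  simp [Gb.cp, max_eq_left hv, h.C0.ne']

theorem cp_ct (h : G.Ok) : Continuous G.cp := by
  unfold Gb.cp
  exact (continuous_id.sub G.pp.continuous).add ((continuous_const.div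
    (continuous_const.max G.pp.continuous.norm) fun v => (lt_max_of_lt_left h.C0).ne').smul
    G.pp.continuous)

theorem f_ct (h : G.Ok) : Continuous fun z : ℝ × B × F => G.f z.1 z.2 :=
  h.Rc.comp (continuous_snd.fst.prodMk (continuous_snd.snd.sub
    (continuous_fst.smul (h.grc.comp continuous_snd))))

theorem rest_le (h : G.Ok) {w : B × F} (hw : w ∈ G.D) (hp : ‖G.pp w.2‖ ≤ G.C) :
    ‖w.2 - G.p₁ w.2‖ ≤ 2 * G.C := by
  have a := h.Db w hw
  have b := norm_add_le (w.2 - G.p₁ w.2 - G.pp w.2) (G.pp w.2)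
  rw [sub_add_cancel] at b
  linarith

theorem g_le (h : G.Ok) (b : B) (v : F) :
    G.g (b, v) ≤ 1 / 2 * (‖G.pp v‖ ^ 2 - ‖G.p₁ v‖ ^ 2) + G.C * ‖v‖ := by
  set c : ℝ := ‖G.pp v‖ ^ 2 - ‖G.p₁ v‖ ^ 2 with hc
  have d : ∀ t : ℝ, HasDerivAt (fun t : ℝ => G.g (b, t • v) - 1 / 2 * t ^ 2 * c)
      (⟪G.gr (b, t • v) - (G.pp (t • v) - G.p₁ (t • v)), v⟫_ℝ) t := by
    intro t
    have a := (h.gd b (t • v)).hasFDerivAt.comp_hasDerivAt t ((hasDerivAt_id t).smul_const v)
    have e := (((hasDerivAt_id t).pow 2).const_mul (1 / 2 : ℝ)).mul_const c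
    refine (a.sub e).congr_deriv ?_
    simp only [map_smul, inner_sub_left, real_inner_smul_left, op_in h.op, op_in h.o₁, hc, one_smul,
      InnerProductSpace.toDual_apply_apply, id]
    ring
  have m := norm_image_sub_le_of_norm_deriv_le_segment_01' (C := G.C * ‖v‖)
    (fun t _ => (d t).hasDerivWithinAt) fun t _ => (abs_real_inner_le_norm _ _).trans
      (mul_le_mul_of_nonneg_right (h.gb (b, t • v)) (norm_nonneg _))
  simp only [one_smul, zero_smul, (h.g0 b).1] at m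
  have := (abs_le.1 m).2
  linarith

end Crest.Agent.N218.En.Wa

namespace Crest.Agent.N218.En
open Pm Sk Wa

theorem wra (hL : LY) : WRA := by
  intro B F _ _ _ _ _ _ _ G h E _ _ _ P a ι ι' q n fr
  obtain ⟨e₀, p₀, ly⟩ := hL B F G h
  obtain ⟨K, hK⟩ := isCompact_univ.exists_bound_of_continuousOn q.ct.continuousOn
  have K1 : 0 < max K 1 := lt_max_of_lt_right one_pos
  refine ⟨min e₀ (min 1 (1 / (2 * max K 1))), lt_min p₀ (lt_min one_pos (by positivity)),
    fun ε e0 e1 => ?_⟩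
  have ea : ε ≤ e₀ := e1.trans (min_le_left _ _)
  have eb : ε ≤ 1 := e1.trans ((min_le_right _ _).trans (min_le_left _ _))
  have ec : ε * max K 1 ≤ 1 / 2 := by
    have := e1.trans ((min_le_right _ _).trans (min_le_right _ _))
    rw [le_div_iff₀ (by positivity)] at this
    linarith
  have C0 := h.C0
  have ρ0 := h.ρ0
  have Hn : ∀ x y, ‖(ε • G.H x) y‖ ≤ 1 / 2 * ‖y‖ := fun x y => by
    rw [smul_apply, norm_smul, Real.norm_of_nonneg e0.le]
    have := ((G.H x).le_opNorm y).trans (mul_le_mul_of_nonneg_right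
      ((hK x trivial).trans (le_max_left K 1)) (norm_nonneg y))
    nlinarith [norm_nonneg y]
  have fc : Continuous fun w : B × F => G.f ε (w.1, G.cp w.2) :=
    (f_ct h).comp (continuous_const.prodMk (continuous_fst.prodMk ((cp_ct h).comp continuous_snd)))
  have cc : Continuous fun w : (B × ℝ) × F => cl w.1.2 := by unfold cl; fun_prop
  have pc : Continuous (G.rg ι ι' a ε).ph :=
    ((continuous_const.sub cc).smul ((G.p₁.continuous.comp continuous_snd).const_smul _)).add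
      (cc.smul (fc.comp (continuous_fst.fst.prodMk continuous_snd)))
  have dc : IsClosed (G.rg ι ι' a ε).Dm :=
    h.Dc.inter (isClosed_le (G.pp.continuous.comp continuous_snd).norm continuous_const)
  have fD : ∀ w : B × F, (w.1, G.f ε (w.1, G.cp w.2)) ∈ (G.rg ι ι' a ε).Dm := fun w =>
    ⟨h.RD (w.1, G.cp w.2 - ε • G.gr (w.1, G.cp w.2)), pp_f h e0.le eb _ (pp_cp h _)⟩
  have je : ∀ s, ∀ w ∈ (G.rg ι ι' a ε).Dm, (G.rg ι ι' a ε).j (s, w) = G.f (s * ε) w := by
    intro s w hw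
    change G.f (s * ε) w + (w.2 - G.Rr w) = _
    rw [q.id w hw.1, sub_self, add_zero]
  have fe : ∀ w ∈ (G.rg ι ι' a ε).Dm, (G.rg ι ι' a ε).f w = G.f ε w := by
    intro w hw
    change G.f ε (w.1, G.cp w.2) = _
    rw [cp_id h hw.2]
  have se : ∀ s ∈ Icc (0 : ℝ) 1, 0 ≤ s * ε ∧ s * ε ≤ ε := fun s hs =>
    ⟨mul_nonneg hs.1 e0.le, by nlinarith [hs.2]⟩
  have Pi : ∀ x z, P x (ι x z) = ι x z := fun x z => by rw [← fr.ri, fr.li]
  refine
    { pc := continuous_const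
      pi := fun _ => h.o₁.id
      pn := fun _ => op_le h.o₁
      hμ := lt_add_of_pos_right _ e0
      hc := one_pos
      hκ := half_pos e0
      Cc := continuous_const
      Cn := fun _ => norm_zero.le
      Cp := fun _ _ => ⟨map_zero _, rfl⟩
      hp := ⟨isOpen_univ, pc.continuousOn, fun R => ?_, fun w _ => ?_, fun w _ hw => ?_,
        fun x s y hs => ⟨trivial, ?_⟩⟩
      en := fun x s y hs => ⟨trivial, ?_⟩
      fc := fc
      dc := dc
      fD := fD
      db := fun w hw => rest_le h hw.1 hw.2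
      jc := ((f_ct h).comp ((continuous_fst.mul continuous_const).prodMk continuous_snd)).add
        (continuous_snd.snd.sub (h.Rc.comp continuous_snd))
      j0 := fun w => ?_
      j1 := fun w hw => by rw [je 1 w hw, fe w hw, one_mul]
      jD := fun s hs w hw => ?_
      jg := fun s hs w hw => ?_
      jx := fun s hs w hw hx => ?_
      gc := continuous_const.mul h.gc
      gf := fun w hw h0 => ?_
      gk := fun b => ?_
      ha := mul_pos e0 n.a0
      hr := half_pos ρ0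
      Hc := q.ct.const_smul ε
      Hs := fun x y y' => ?_
      Hn := Hn
      ic := fr.ic
      ic' := fr.ic'
      ad := fr.ad
      iii := fun x z => congrArg (ι x) (fr.li x z)
      HP := fun x y => ?_
      Hm := fun x z => ?_
      Hp := fun x y hy => ?_
      ln := fun x y hy => ?_ }
  · refine (((isCompact_univ (X := B)).prod (isCompact_closedBall (0 : ℝ) R)).prod
      (isCompact_closedBall (0 : F) R)).of_isClosed_subset (isClosed_univ.inter
        ((isClosed_le continuous_fst.snd.abs continuous_const).inter ((isClosed_le pc.norm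
          continuous_const).inter (isClosed_le continuous_snd.norm continuous_const)))) ?_
    rintro w ⟨-, a, -, d⟩
    exact ⟨⟨trivial, mem_closedBall_zero_iff.2 a⟩, mem_closedBall_zero_iff.2 d⟩
  · have e : (G.rg ι ι' a ε).ph w - G.p₁ ((G.rg ι ι' a ε).ph w) =
        cl w.1.2 • (G.f ε (w.1.1, G.cp w.2) - G.p₁ (G.f ε (w.1.1, G.cp w.2))) := by
      simp only [Gb.rg, map_add, map_smul, h.o₁.id]; module
    change ‖(G.rg ι ι' a ε).ph w - G.p₁ ((G.rg ι ι' a ε).ph w)‖ ≤ 2 * G.C + 0 * _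
    have r := rest_le h (fD (w.1.1, w.2)).1 (fD (w.1.1, w.2)).2
    rw [e, norm_smul, Real.norm_of_nonneg (cl01 _).1]
    have r' : ‖G.f ε (w.1.1, G.cp w.2) - G.p₁ (G.f ε (w.1.1, G.cp w.2))‖ ≤ 2 * G.C := r
    nlinarith [cl01 w.1.2, norm_nonneg (G.f ε (w.1.1, G.cp w.2) - G.p₁ (G.f ε (w.1.1, G.cp w.2)))]
  · obtain ⟨e, he, u⟩ := p1_f h ε (w.1.1, G.cp w.2)
    have v : G.p₁ ((G.rg ι ι' a ε).ph w) = (1 + ε) • G.p₁ w.2 - (cl w.1.2 * ε) • e := by
      simp only [Gb.rg, map_add, map_smul, h.o₁.id, u, p1_cp h]; module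
    change (1 + ε / 2) * ‖G.p₁ w.2‖ ≤ ‖G.p₁ ((G.rg ι ι' a ε).ph w)‖
    have hw' : 2 * G.C ≤ ‖G.p₁ w.2‖ := hw
    rw [v]
    refine le_trans ?_ (norm_sub_norm_le _ _)
    rw [norm_smul, norm_smul, Real.norm_of_nonneg (by positivity : 0 ≤ 1 + ε),
      Real.norm_of_nonneg (mul_nonneg (cl01 _).1 e0.le)]
    have : cl w.1.2 * ‖e‖ ≤ G.C := by nlinarith [cl01 w.1.2, norm_nonneg e]
    nlinarith
  · have : cl s = 0 := max_eq_left ((min_le_right _ _).trans hs)
    simp [Gb.rg, this]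
  · have : cl s = 1 := by rw [cl, min_eq_left hs, max_eq_right zero_le_one]
    simp [Gb.rg, this]
  · simp [Gb.rg, Gb.f]
  · rw [je s w hw]
    exact ⟨h.RD (w.1, w.2 - (s * ε) • G.gr w), pp_f h (se s hs).1 ((se s hs).2.trans eb) w hw.2⟩
  · rw [je s w hw]
    have := ly _ (se s hs).1 ((se s hs).2.trans ea) w hw.1
    refine mul_le_mul_of_nonneg_left (this.trans ?_) e0.le
    have := (se s hs).1
    have : 0 ≤ s * ε / 4 * ‖G.gr w‖ ^ 2 := by positivity
    linarith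
  · rw [je s w hw]
    obtain ⟨e, he, u⟩ := p1_f h (s * ε) w
    change ‖G.p₁ w.2‖ ≤ ‖G.p₁ (G.f (s * ε) w)‖
    have hx' : 2 * G.C ≤ ‖G.p₁ w.2‖ := hx
    have := (se s hs).1
    rw [u]
    refine le_trans ?_ (norm_sub_norm_le _ _)
    rw [norm_smul, norm_smul, Real.norm_of_nonneg (by positivity : 0 ≤ 1 + s * ε),
      Real.norm_of_nonneg this]
    nlinarith
  · rw [fe w hw]
    have := ly _ e0.le ea w hw.1
    refine mul_lt_mul_of_pos_left (this.trans_lt ?_) e0
    have : 0 < ‖G.gr w‖ := norm_pos_iff.2 fun z => h0 (h.crit w hw.1 z)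
    have : 0 < ε / 4 * ‖G.gr w‖ ^ 2 := by positivity
    linarith
  · set L : ℝ := b / ε + 5 / 2 * G.C ^ 2 with hL
    refine ((isCompact_univ (X := B)).prod (isCompact_closedBall (0 : F)
      (1 + 4 * G.C + 2 * |L|))).of_isClosed_subset
      (dc.inter (isClosed_le continuous_const (continuous_const.mul h.gc))) ?_
    rintro w ⟨hw, d⟩
    refine ⟨trivial, mem_closedBall_zero_iff.2 ?_⟩
    have d' : -b ≤ ε * G.g w := d
    have d2 : -(b / ε) ≤ G.g w := by rw [← neg_div, div_le_iff₀ e0]; linarith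
    have r := rest_le h hw.1 hw.2
    have t := norm_add_le (w.2 - G.p₁ w.2) (G.p₁ w.2)
    rw [sub_add_cancel] at t
    have g := g_le h w.1 w.2
    have p : ‖G.pp w.2‖ ≤ G.C := hw.2
    have p2 : ‖G.pp w.2‖ ^ 2 ≤ G.C ^ 2 := pow_le_pow_left₀ (norm_nonneg _) p 2
    have k : ‖G.p₁ w.2‖ * (‖G.p₁ w.2‖ - 2 * G.C) ≤ 2 * |L| := by
      have := le_abs_self L
      have g' : G.g w ≤ 1 / 2 * (‖G.pp w.2‖ ^ 2 - ‖G.p₁ w.2‖ ^ 2) + G.C * ‖w.2‖ := g
      nlinarith
    by_contra hn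
    push Not at hn
    nlinarith [abs_nonneg L]
  · change ⟪ε • G.H x y, y'⟫_ℝ = ⟪y, ε • G.H x y'⟫_ℝ
    rw [real_inner_smul_left, real_inner_smul_right, q.sy]
  · change ε • G.H x (ι x (ι' x y)) = ι x (ι' x (ε • G.H x y))
    rw [fr.ri, fr.ri, n.cm, map_smul]
  · change ⟪ε • G.H x (ι x z), ι x z⟫_ℝ ≤ -(ε * a * ‖ι x z‖ ^ 2)
    have := n.ng x (ι x z)
    rw [Pi] at this
    rw [real_inner_smul_left]
    nlinarith
  · change 0 ≤ ⟪ε • G.H x y, y⟫_ℝ
    rw [real_inner_smul_left]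
    refine mul_nonneg e0.le (n.ps x y ?_)
    rw [← fr.ri, show ι' x y = 0 from hy, map_zero]
  · have hy' : ‖y‖ ≤ G.ρ := by have : ‖y‖ ≤ 2 * (G.ρ / 2) := hy; linarith
    have m : (x, y) ∈ (G.rg ι ι' a ε).Dm :=
      ⟨(h.nr (x, y) (by change ‖y‖ ≤ _; linarith)).1, ((op_le h.op y).trans hy').trans h.ρC⟩
    refine ⟨m, ?_, fun s hs => ?_⟩
    · change ε * G.g (x, y) = 1 / 2 * ⟪ε • G.H x y, y⟫_ℝ
      rw [(q.qd x y hy').1, real_inner_smul_left]; ring
    · rw [je s _ m]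
      change G.Rr (x, y - (s * ε) • G.gr (x, y)) = y - s • (ε • G.H x) y
      have e : y - (s * ε) • G.gr (x, y) = y - s • (ε • G.H x) y := by
        rw [(q.qd x y hy').2, mul_smul]; rfl
      rw [e]
      refine (h.nr (x, _) ((norm_sub_le _ _).trans ?_)).2
      rw [norm_smul, Real.norm_of_nonneg hs.1]
      have := Hn x y
      nlinarith [hs.1, hs.2, norm_nonneg ((ε • G.H x) y), norm_nonneg y]

end Crest.Agent.N218.En
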