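import Crest.Agent.N218.En.Defs
import Crest.Agent.N218.Pm.Ecf
import Crest.Agent.N218.Pm.Kit3

/-!
# Row 218, END wrapper (helper79): the path from the linear map to the clamped map
-/

set_option autoImplicit false
set_option linter.unusedVariables false
set_option linter.unusedSectionVars false

open Set Topology
open scoped InnerProductSpace

noncomputable section

namespace Crest.Agent.N218.En
open Pm Sk

namespace W1
variable {B F : Type} [TopologicalSpace B] [NormedAddCommGroup F] [InnerProductSpace ℝ F]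
  [CompleteSpace F] {G : Gb B F}

theorem la {p : F →L[ℝ] F} (h : Op p) {ε : ℝ} (hε : 0 < ε) {k : ℕ} (hk : 1 ≤ k) :
    LA k ((1 + ε) • p) := by
  refine LA.of_sym (fun v w => by simp [inner_smul_left, inner_smul_right, h.sy]) (fun v e => ?_) hk
  simp only [smul_apply, map_smul, h.id, smul_smul] at e
  have a := congrArg p e
  rw [map_smul, h.id] at a
  have b : ((1 + ε) * (1 + ε) - 1) • p v = 0 := by rw [sub_smul, a, one_smul, sub_self]
  rw [← e, (smul_eq_zero.1 b).resolve_left (by nlinarith), smul_zero]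

theorem p_cp (h : G.Ok) (v : F) : G.p₁ (G.cp v) = G.p₁ v := by
  simp [Gb.cp, (h.oz v).1]

theorem pp_cp (h : G.Ok) (v : F) : ‖G.pp (G.cp v)‖ ≤ G.C := by
  have m : 0 < max G.C ‖G.pp v‖ := lt_max_of_lt_left h.C0
  simp only [Gb.cp, map_add, map_sub, map_smul, h.op.id, sub_self, zero_add]
  rw [norm_smul, Real.norm_of_nonneg (div_nonneg h.C0.le m.le), div_mul_eq_mul_div, div_le_iff₀ m]
  exact mul_le_mul_of_nonneg_left (le_max_right _ _) h.C0.le

theorem bd (h : G.Ok) {ε : ℝ} (e0 : 0 ≤ ε) (e1 : ε ≤ 1) (b : B) (v : F) :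
    ‖G.f ε (b, G.cp v) - ((1 + ε) • G.p₁) v‖ ≤ (2 + ‖G.p₁‖ + ‖G.pp‖) * G.C := by
  have a := h.Db _ (h.RD (b, G.cp v - ε • G.gr (b, G.cp v)))
  have c := h.gb (b, G.cp v)
  have d := pp_cp h v
  rw [h.R₁, h.Rp] at a
  rw [smul_apply, ← p_cp h v, Gb.f]
  dsimp only at a c ⊢
  generalize G.cp v = u at *
  generalize G.Rr (b, u - ε • G.gr (b, u)) = r at *
  obtain ⟨w, hw⟩ : ∃ w, G.gr (b, u) = w + (G.pp u - G.p₁ u) := ⟨_, (sub_add_cancel _ _).symm⟩
  rw [hw] at a c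
  rw [add_sub_cancel_right] at c
  simp only [map_sub, map_add, map_smul, h.o₁.id, h.op.id, (h.oz u).1, (h.oz u).2] at a
  have e : r - (1 + ε) • G.p₁ u = (r - (G.p₁ u - ε • (G.p₁ w + (0 - G.p₁ u))) -
      (G.pp u - ε • (G.pp w + (G.pp u - 0)))) + ((1 - ε) • G.pp u - ε • G.p₁ w - ε • G.pp w) := by
    module
  rw [e]
  refine (norm_add_le _ _).trans ?_
  have n := (norm_sub_le ((1 - ε) • G.pp u - ε • G.p₁ w) (ε • G.pp w)).trans
    (add_le_add_left (norm_sub_le _ _) _)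
  rw [norm_smul, norm_smul, norm_smul, Real.norm_of_nonneg e0,
    Real.norm_of_nonneg (sub_nonneg.2 e1)] at n
  have n1 := (G.p₁.le_opNorm w).trans (mul_le_mul_of_nonneg_left c (norm_nonneg _))
  have n2 := (G.pp.le_opNorm w).trans (mul_le_mul_of_nonneg_left c (norm_nonneg _))
  nlinarith [norm_nonneg (G.pp u), norm_nonneg (G.p₁ w), norm_nonneg (G.pp w)]

end W1

/-- the first half of `WRB` -/
theorem wrb1 (hG : GF) : AllF fun B F _ _ _ _ _ _ _ _ G R => ∀ (A : Type) [AddCommGroup A]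
    (T : Th B A) (k : ℕ), 16 ≤ k → ∃ ε₀ > 0, ∀ ε, 0 < ε → ε ≤ ε₀ → ∃ δ₀ > 0, ∀ δ, 0 < δ → δ < δ₀ →
      Pe (T.pa k (sp F) ((Psi k (R ε).O (R ε).ph).F (tau δ)))
        (T.pa k (sp F) (Ec k univ fun w => G.f ε (w.1, G.cp w.2))) := by
  intro B F _ _ _ _ _ _ _ G h E _ _ _ P a ι ι' _ _ _ A _ T k hk
  obtain ⟨ε₀, e0, hg⟩ := hG B F G h k (by omega)
  refine ⟨min ε₀ 1, lt_min e0 one_pos, fun ε p q => ?_⟩
  have g1 := (hg ε p (q.trans (min_le_left _ _))).2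
  have l := W1.la h.o₁ p (k := k) (by omega)
  have b := W1.bd h p.le (q.trans (min_le_right _ _))
  obtain ⟨L, hL⟩ : ∃ L, L = (1 + ε) • G.p₁ := ⟨_, rfl⟩
  obtain ⟨f, hf⟩ : ∃ f : B × F → F, f = fun w => G.f ε (w.1, G.cp w.2) := ⟨_, rfl⟩
  have e : (G.rg ι ι' a ε).ph = fun w => (1 - cl w.1.2) • L w.2 + cl w.1.2 • f (w.1.1, w.2) := by
    rw [hL, hf]; rfl
  change ∃ δ₀ > 0, ∀ δ, 0 < δ → δ < δ₀ → Pe (T.pa k (sp F) ((Psi k univ _).F (tau δ))) _
  replace b : ∀ x v, ‖f (x, v) - L v‖ ≤ (2 + ‖G.p₁‖ + ‖G.pp‖) * G.C := by rw [hL, hf]; exact b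
  rw [e, ← hf]
  rw [← hf] at g1
  rw [← hL] at l
  have C0 : 0 ≤ (2 + ‖G.p₁‖ + ‖G.pp‖) * G.C := mul_nonneg (by positivity) h.C0.le
  generalize (2 + ‖G.p₁‖ + ‖G.pp‖) * G.C = C at *
  have b' : ∀ (x : B × ℝ) v, ‖(1 - cl x.2) • L v + cl x.2 • f (x.1, v) - L v‖ ≤ C := fun x v => by
    have m := cl_mem x.2
    rw [show (1 - cl x.2) • L v + cl x.2 • f (x.1, v) - L v = cl x.2 • (f (x.1, v) - L v) by module,
      norm_smul, Real.norm_of_nonneg m.1]
    nlinarith [b x.1 v, m.2, norm_nonneg (f (x.1, v) - L v)]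
  have ct := g1.ct
  have g0 : Gf k fun w : B × F => L w.2 := ⟨by fun_prop, ⟨L, 0, l, fun _ => by simp⟩, 1, one_pos,
    fun _ s z s0 _ e => by rw [l s z s0 e, mn_zero]⟩
  have e0 : (Psi k univ fun w : (B × ℝ) × F => (1 - cl w.1.2) • L w.2 + cl w.1.2 • f (w.1.1, w.2)).pull
      (fun x => (x, 0)) = Psi k univ fun w : B × F => L w.2 := by
    simp [Psi, PM.pull, cl_of_le]
  have e1 : (Psi k univ fun w : (B × ℝ) × F => (1 - cl w.1.2) • L w.2 + cl w.1.2 • f (w.1.1, w.2)).pull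
      (fun x => (x, 1)) = Psi k univ f := by
    simp [Psi, PM.pull, cl_of_ge]
  obtain ⟨K, -, hK⟩ := Yk.apr (σ := Equiv.addRight (1 : Ix k)) (tau_sq (k := k))
    (fun i => add_right_comm _ _ _) L
    fun s z s0 e => l s z s0 ((eq_iff (g := fun i => s • mn z i)).2 e)
  obtain ⟨δ₀, d0, hd⟩ := ecf B A T k (sp F) 0 1 (Psi k univ fun w : (B × ℝ) × F =>
      (1 - cl w.1.2) • L w.2 + cl w.1.2 • f (w.1.1, w.2)) hk zero_le_one
    (psi_ok_lin (A := fun _ => L) (by fun_prop) continuous_const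
      (fun _ v e => l 0 v le_rfl fun i => by rw [zero_smul, add_zero, ← e, sub_self])
      fun _ _ => ⟨C, fun x _ v => b' x v⟩)
    (fun x s hs y => ⟨Iff.rfl, fun _ => by simp only [Psi, cl_of_le hs, cl_of_le le_rfl], rfl⟩)
    (fun x s hs y => ⟨Iff.rfl, fun _ => by simp only [Psi, cl_of_ge hs, cl_of_ge le_rfl], rfl⟩)
    (e0 ▸ g0.Adm) (e1 ▸ g1.Adm) ⟨K * C, fun x _ s s0 e => (hK s C x.2 _ s0 C0
      (fun i => b' x.1 (x.2 i)) fun i => by
        rw [add_sub_cancel]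
        exact (eq_iff (g := fun i => s • mn x.2 i) (F := fun v =>
          (1 - cl x.1.2) • L v + cl x.1.2 • f (x.1.1, v))).1 (fun i => congrFun e i) i).2⟩
  refine ⟨δ₀, d0, fun δ u v => ?_⟩
  have := (hd δ u v).2
  have z : T.pa k (sp F) (Psi k univ fun w : B × F => L w.2).Ec = 0 :=
    Ecf.emp T (sp F) hk g0.ok fun x hx => hx.1.1 (by
      rw [l _ x.2 (Real.exp_pos x.1.2).le fun i => congrFun hx.2 i, mn_zero])
  rwa [e0, e1, z, sub_zero] at this

end Crest.Agent.N218.En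

end
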