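import Crest.Agent.N218.En.Wrb0
import Crest.Agent.N218.En.Wrb1
import Crest.Agent.N218.En.Gf

/-! Row 218, END wrapper (helper21): `WRB` -/

namespace Crest.Agent.N218.En

theorem wrb : WRB := wrb_of gf (wrb1 gf)

end Crest.Agent.N218.En
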