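import Crest.Agent.N218.En.End
import Crest.Agent.N218.En.Cxe
import Crest.Agent.N218.En.Dg
import Crest.Agent.N218.En.Dim
import Crest.Agent.N218.En.Jet
import Crest.Agent.N218.En.Sgn
import Crest.Agent.N218.En.Sta
import Crest.Agent.N218.En.Ste
import Crest.Agent.N218.En.Trl
import Crest.Agent.N218.En.Trv
import Crest.Agent.N218.En.Wra
import Crest.Agent.N218.En.Wrb
import Crest.Agent.N218.Rd.Dich
import Crest.Agent.N218.Rd.H1a
import Crest.Agent.N218.Rd.H1b
import Crest.Agent.N218.Rd.H2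
import Crest.Agent.N218.Rd.Tail
import Crest.Agent.N218.Rd.Trs
import Crest.Agent.N218.Rd.Uv

/-! # Row 218, END (helper92) -/

namespace Crest.Agent.N218.En

theorem dyn0 : Rd.DYN := Rd.dyn Rd.dich Rd.uv Rd.h1a Rd.h1b Rd.h2

theorem red0 : Rd.RED := Rd.red dyn0 (Rd.trs Rd.tail)

/-- **END** -/
theorem endt : Sk.ENDT :=
  endt_of gf dg trl jet sta ste sgn trv (wra ly) wrb dim cxe dyn0 red0

end Crest.Agent.N218.En
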