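import Crest.Agent.N218.En.Defs

/-!
# Row 218, END wrapper (helper21): removing the clamp
-/

set_option autoImplicit false
set_option linter.unusedVariables false
set_option linter.unusedSectionVars false

open Set Topology
open scoped InnerProductSpace

noncomputable section

namespace Crest.Agent.N218.En
open Pm Sk

namespace Wb

/-- a homotopy of self-maps that does not move the zeros -/
theorem ht_z {B E : Type} [TopologicalSpace B] {k : ℕ} [NormedAddCommGroup E] [NormedSpace ℝ E]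
    {F : (B × unitInterval) × E → E} (hF : Continuous F) {f g : B × E → E}
    (h0 : ∀ x, f x = F ((x.1, 0), x.2)) (h1 : ∀ x, g x = F ((x.1, 1), x.2)) (o : (Ec k univ f).Ok)
    (z : ∀ b t (s : ℝ) (y : V k E), 0 ≤ s → (∀ i, y i - F ((b, t), y (i - 1)) + s • mn y i = 0) →
      ∀ t' i, F ((b, t'), y i) = F ((b, t), y i)) : Pb.Ht (Ec k univ f) (Ec k univ g) := by
  obtain rfl := funext h0
  obtain rfl := funext h1
  let e : ((B × ℝ) × unitInterval) × V k E ≃ₜ ((B × ℝ) × V k E) × unitInterval :=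
    { toFun := fun x => ((x.1.1, x.2), x.1.2), invFun := fun x => ((x.1.1, x.2), x.1.2)
      left_inv := fun _ => rfl, right_inv := fun _ => rfl }
  refine ⟨(Ec k univ F).pull fun x => ((x.1.1, x.2), x.1.2), ⟨?_, fun x a => ⟨sh_ne a.1, fun _ => trivial⟩,
    Continuous.continuousOn ?_, fun x _ => ?_, ?_, fun x a => a.1⟩, ⟨rfl, fun _ _ => rfl⟩, rfl,
    fun _ _ => rfl⟩
  · convert isOpen_ne_fun (f := fun x : ((B × ℝ) × unitInterval) × V k E => mn x.2) (g := fun _ => 0)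
      (by fun_prop) continuous_const using 1
    exact Set.ext fun x => ⟨fun a => a.1, fun a => ⟨a, fun _ => trivial⟩⟩
  · change Continuous fun x : ((B × ℝ) × unitInterval) × V k E =>
      (fun i => x.2 i - F ((x.1.1.1, x.1.2), x.2 (i - 1))) + Real.exp x.1.1.2 • mn x.2
    fun_prop
  · funext i
    simp [Pb.pull, Ec, PM.Ec, Psi, mn_sh]
  · convert e.isCompact_preimage.2 (o.cp.prod isCompact_univ) using 1
    ext x
    refine ⟨fun a => ⟨⟨a.1, funext fun i => ?_⟩, trivial⟩, fun a => ⟨a.1.1, funext fun i => ?_⟩⟩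
    · have := z _ _ _ _ (Real.exp_pos x.1.1.2).le (congrFun a.2) 0 (i - 1)
      exact (congrArg (fun w => x.2 i - w + Real.exp x.1.1.2 • mn x.2 i) this).trans (congrFun a.2 i)
    · have := z _ _ _ _ (Real.exp_pos x.1.1.2).le (congrFun a.1.2) x.1.2 (i - 1)
      exact (congrArg (fun w => x.2 i - w + Real.exp x.1.1.2 • mn x.2 i) this).trans
        (congrFun a.1.2 i)

variable {B F : Type} [TopologicalSpace B] [NormedAddCommGroup F] [InnerProductSpace ℝ F]

theorem op_le {p : F →L[ℝ] F} (h : Op p) (v : F) : ‖p v‖ ≤ ‖v‖ := by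
  have a : ‖p v‖ ^ 2 ≤ ‖v‖ * ‖p v‖ := by
    rw [← real_inner_self_eq_norm_sq, h.sy, h.id]; exact real_inner_le_norm _ _
  nlinarith [norm_nonneg v, norm_nonneg (p v)]

/-- `1 + s mn` does not shrink the sup norm -/
theorem le_mn {k : ℕ} {s : ℝ} (s0 : 0 ≤ s) (u : V k F) : ‖u‖ ≤ ‖u + s • mn u‖ := by
  have e : (1 + s) • u = (1 + s / 2) • (u + s • mn u) + (s / 2) • tL k F (u + s • mn u) := by
    rw [map_add, map_smul, tL_mn, mn_eq]; module
  have a := norm_add_le ((1 + s / 2) • (u + s • mn u)) ((s / 2) • tL k F (u + s • mn u))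
  rw [← e, norm_smul, norm_smul, norm_smul, norm_tL, Real.norm_of_nonneg (by positivity),
    Real.norm_of_nonneg (by positivity), Real.norm_of_nonneg (by positivity)] at a
  nlinarith

variable [CompleteSpace F] {G : Gb B F} (hG : G.Ok)
include hG

theorem cp_ct : Continuous G.cp := by
  have := hG.C0
  unfold Gb.cp
  fun_prop (disch := intro; positivity)

theorem f_ct (ε : ℝ) : Continuous (G.f ε) := by
  have := hG.Rc
  have := hG.grc
  unfold Gb.f
  fun_prop

theorem cp_eq {v : F} (h : ‖G.pp v‖ ≤ G.C) : G.cp v = v := by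
  rw [Gb.cp, max_eq_left h, div_self hG.C0.ne', one_smul, sub_add_cancel]

theorem pp_f {ε : ℝ} (e0 : 0 ≤ ε) (e1 : ε ≤ 1) (w : B × F) :
    ‖G.pp (G.f ε w)‖ ≤ (1 - ε) * ‖G.pp w.2‖ + ε * G.C := by
  have e : G.pp (G.f ε w) =
      (1 - ε) • G.pp w.2 - ε • G.pp (G.gr w - (G.pp w.2 - G.p₁ w.2)) := by
    simp only [Gb.f, hG.Rp, map_sub, map_smul, hG.op.id, (hG.oz _).2]; module
  rw [e]
  refine (norm_sub_le _ _).trans ?_
  rw [norm_smul, norm_smul, Real.norm_of_nonneg e0, Real.norm_of_nonneg (by linarith)]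
  exact add_le_add le_rfl (mul_le_mul_of_nonneg_left ((op_le hG.op _).trans (hG.gb w)) e0)

theorem pp_t {t : ℝ} (t0 : 0 ≤ t) (t1 : t ≤ 1) (v : F) :
    ‖G.pp (v - t • (v - G.cp v))‖ ≤ ‖G.pp v‖ := by
  have c0 := hG.C0
  have a : G.C / max G.C ‖G.pp v‖ ≤ 1 := div_le_one_of_le₀ (le_max_left _ _) (by positivity)
  have b : 0 ≤ G.C / max G.C ‖G.pp v‖ := by positivity
  have e : G.pp (v - t • (v - G.cp v)) = (1 - t + t * (G.C / max G.C ‖G.pp v‖)) • G.pp v := by
    simp only [Gb.cp, map_sub, map_add, map_smul, hG.op.id]; module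
  rw [e, norm_smul, Real.norm_of_nonneg (by nlinarith)]
  exact mul_le_of_le_one_left (norm_nonneg _) (by nlinarith)

/-- the clamp does not change the invariant -/
theorem ht_cp {k : ℕ} {ε : ℝ} (e0 : 0 < ε) (e1 : ε ≤ 1) (o : (Ec k univ (G.f ε)).Ok) :
    Pb.Ht (Ec k univ (G.f ε)) (Ec k univ fun w => G.f ε (w.1, G.cp w.2)) := by
  have c1 := f_ct hG ε
  have c2 := cp_ct hG
  refine ht_z (F := fun w => G.f ε (w.1.1, w.2 - (w.1.2 : ℝ) • (w.2 - G.cp w.2))) (by fun_prop)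
    (fun x => by simp) (fun x => by simp) o fun b t s y s0 h t' i => ?_
  let u : V k F := fun i => G.pp (y i)
  have a : ‖u + s • mn u‖ ≤ (1 - ε) * ‖u‖ + ε * G.C := by
    have := hG.C0
    refine (pi_norm_le_iff_of_nonneg (by have := sub_nonneg.2 e1; positivity)).2 fun i => ?_
    have e := congrArg G.pp (h i)
    rw [map_add, map_sub, map_smul, map_zero, sub_add_eq_add_sub, sub_eq_zero] at e
    have m : G.pp (mn y i) = mn u i := by simp [mn, u]
    rw [m] at e
    refine (congrArg norm e).trans_le ((pp_f hG e0.le e1 _).trans ?_)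
    exact add_le_add (mul_le_mul_of_nonneg_left ((pp_t hG t.2.1 t.2.2 _).trans
      (norm_le_pi_norm u (i - 1))) (sub_nonneg.2 e1)) le_rfl
  have c : ‖u‖ ≤ G.C := by nlinarith [le_mn s0 u]
  simp only [cp_eq hG ((norm_le_pi_norm u i).trans c), sub_self, smul_zero]

end Wb

/-- `WRB` from its form with the clamp -/
theorem wrb_of (h : GF) (h1 : AllF fun B F _ _ _ _ _ _ _ _ G R => ∀ (A : Type) [AddCommGroup A]
    (T : Th B A) (k : ℕ), 16 ≤ k → ∃ ε₀ > 0, ∀ ε, 0 < ε → ε ≤ ε₀ → ∃ δ₀ > 0, ∀ δ, 0 < δ → δ < δ₀ →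
      Pe (T.pa k (sp F) ((Psi k (R ε).O (R ε).ph).F (tau δ)))
        (T.pa k (sp F) (Ec k univ fun w => G.f ε (w.1, G.cp w.2)))) : WRB := by
  intro B F _ _ _ _ _ _ _ G hG E _ _ _ P a ι ι' hQ hN hF A _ T k hk
  obtain ⟨ε₁, p1, q1⟩ := h B F G hG k (by omega)
  obtain ⟨ε₂, p2, q2⟩ := h1 B F G hG E P a ι ι' hQ hN hF A T k hk
  refine ⟨min 1 (min ε₁ ε₂), by positivity, fun ε e0 e => ?_⟩
  simp only [le_min_iff] at e
  rw [T.pa_eqv k (sp F) _ _ hk (Wb.ht_cp hG e0 e.1 (q1 ε e0 e.2.1).1.ok).eqv]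
  exact q2 ε e0 e.2.2

end Crest.Agent.N218.En

end
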